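import Vale.Agent.P014T.Kc.Sym

/-!
# P014T, block KC: vanishing near the identity, smooth data, normalised data
-/

set_option autoImplicit false
set_option linter.all false

namespace Vale.Agent.P014T.Kc

variable {G U D E : Type} [Group G] [AddCommGroup U] [AddCommGroup D] [AddCommGroup E]
  [DistribMulAction G U] [DistribMulAction G D] [DistribMulAction G E]
  {Γ N V : Subgroup G} {dv : U →+ D} {S : D →+ E} {m : ℕ} {ω : G → G → U} {W : G → U}
  {l : U} {T : D} {Q : E} {z : G → E}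

theorem Dt.van (F : Fr Γ N dv S) (h : Dt Γ N dv m ω W l T) {x : G} (hx : x ∈ Γ)
    (h1 : ∀ n ∈ N, x * n = n * x) (h2 : ∀ n ∈ N, x • W n = W n) (h3 : ∀ n ∈ N, ω n x = ω x n)
    (h4 : x • T = T) : S (dv (W x) - (x • T - T)) = 0 := by
  rw [h4, sub_self, sub_zero]
  refine F.ab _ fun n hn => ?_
  have a := h.co n (F.le hn) x hx (.inl hn)
  have b := h.co x hx n (F.le hn) (.inr hn)
  rw [h1 n hn, h2 n hn, ← h3 n hn] at b
  linear_combination (norm := abel) b - a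

/-- the class vanishes near the identity -/
theorem Kc.van (F : Fr Γ N dv S) (k : Kc Γ N dv S m ω z) : ∃ (W : G → U) (T : D) (Q : E),
    ∀ x ∈ Γ, (∀ n ∈ N, x * n = n * x) → (∀ n ∈ N, x • W n = W n) → (∀ n ∈ N, ω n x = ω x n) →
      x • T = T → x • Q = Q → z x = 0 := by
  obtain ⟨W, l, T, Q, h, -, e⟩ := k
  exact ⟨W, T, Q, fun x hx h1 h2 h3 h4 h5 => by
    rw [e x hx, h.van F hx h1 h2 h3 h4, h5, sub_self, add_zero]⟩

theorem Sym.van {ζ α β : U} (F : Fr Γ N dv S) (s : Sym Γ N dv S m ζ α β z) :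
    ∃ (W : G → U) (T : D) (Q : E), ∀ x ∈ Γ, (∀ n ∈ N, x * n = n * x) → (∀ n ∈ N, x • W n = W n) →
      x • α = α → x • β = β → x • T = T → x • Q = Q → z x = 0 := by
  obtain ⟨a, b, ha, hb, k⟩ := s
  obtain ⟨W, T, Q, h⟩ := k.van F
  refine ⟨W, T, Q, fun x hx h1 h2 h3 h4 => h x hx h1 h2 fun n _ => ?_⟩
  rw [cp, cp, mul_smul, ← hb x hx, h4, mul_comm, mul_smul, ← ha x hx, h3]
  simp

/-- smooth data -/
theorem Dt.smooth (F : Fr Γ N dv S) (O : Om Γ dv m ω) (h : Dt Γ N dv m ω W l T) (le : V ≤ Γ)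
    (h0 : ∀ n ∈ N, n ∈ V → n = 1) (h1 : ∀ v ∈ V, ∀ n ∈ N, v * n = n * v)
    (h2 : ∀ v ∈ V, ∀ n ∈ N, v • W n = W n)
    (h3 : ∀ x ∈ Γ, ∀ y ∈ Γ, ∀ v ∈ V, ω x (y * v) = ω x y ∧ ω (x * v) y = ω x y)
    (h4 : ∀ v ∈ V, v • T = T) : ∃ W', Dt Γ N dv m ω W' l T ∧ (∀ x, ∀ v ∈ V, W' (x * v) = W' x) ∧
      ∀ x ∈ Γ, S (dv (W' x) - (x • T - T)) = S (dv (W x) - (x • T - T)) := by
  classical
  let H : Subgroup G :=
    { carrier := {g | ∃ n ∈ N, n⁻¹ * g ∈ V}
      one_mem' := ⟨1, one_mem _, by simp⟩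
      mul_mem' := by
        rintro a b ⟨n, hn, e⟩ ⟨n', hn', e'⟩
        refine ⟨n * n', mul_mem hn hn', ?_⟩
        have := mul_mem e e'
        rwa [← mul_assoc, h1 _ e _ (inv_mem hn'), show n'⁻¹ * (n⁻¹ * a) * b = (n * n')⁻¹ * (a * b) by
          group] at this
      inv_mem' := by
        rintro a ⟨n, hn, e⟩
        refine ⟨n⁻¹, inv_mem hn, ?_⟩
        have := h1 _ (inv_mem e) n hn
        have k := inv_mem e
        rwa [show (n⁻¹ * a)⁻¹ = n * ((n⁻¹ * a)⁻¹ * n⁻¹) * 1 by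
          rw [mul_one, ← mul_assoc, ← this]; group, show n * ((n⁻¹ * a)⁻¹ * n⁻¹) * 1 = n⁻¹⁻¹ * a⁻¹ by
          group] at k }
  have mN : ∀ n ∈ N, n ∈ H := fun n hn => ⟨n, hn, by simp⟩
  have mV : ∀ v ∈ V, v ∈ H := fun v hv => ⟨1, one_mem _, by simpa using hv⟩
  obtain ⟨s, s1, s2, s3⟩ : ∃ s : G → G, (∀ x, (s x)⁻¹ * x ∈ H) ∧ (∀ x ∈ H, s x = 1) ∧
      ∀ x, ∀ g ∈ H, s (x * g) = s x := by
    refine ⟨fun x => if x ∈ H then 1 else Quotient.out (QuotientGroup.mk x : G ⧸ H),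
      fun x => ?_, fun x hx => if_pos hx, fun x g hg => ?_⟩
    · dsimp only
      split_ifs with e
      · simpa using e
      · exact QuotientGroup.eq.1 (Quotient.out_eq' (QuotientGroup.mk x : G ⧸ H))
    · simp only [QuotientGroup.mk_mul_of_mem x hg, H.mul_mem_cancel_right hg]
  choose ν ν1 ν2 using s1
  have un : ∀ x, ∀ n ∈ N, n⁻¹ * ((s x)⁻¹ * x) ∈ V → ν x = n := fun x n hn e => by
    have := h0 _ (mul_mem (inv_mem hn) (ν1 x)) (by simpa [mul_assoc] using mul_mem e (inv_mem (ν2 x)))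
    exact (inv_mul_eq_one.1 this).symm
  let ρ : G → G := fun x => s x * ν x
  have r0 : ∀ x, (ρ x)⁻¹ * x ∈ V := fun x => by simpa [ρ, mul_assoc] using ν2 x
  have r1 : ∀ x ∈ Γ, ρ x ∈ Γ := fun x hx => by simpa using mul_mem hx (inv_mem (le (r0 x)))
  have r2 : ∀ x, ∀ v ∈ V, ρ (x * v) = ρ x := fun x v hv => by
    simp only [ρ]
    rw [un (x * v) _ (ν1 x) (by
      rw [s3 x v (mV v hv)]; simpa [mul_assoc] using mul_mem (ν2 x) hv), s3 x v (mV v hv)]
  have r3 : ∀ x, ∀ n ∈ N, ρ (x * n) = ρ x * n := fun x n hn => by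
    simp only [ρ]
    rw [un (x * n) _ (mul_mem (ν1 x) hn) (by
      have := ν2 x
      rw [s3 x n (mN n hn), show (ν x * n)⁻¹ * ((s x)⁻¹ * (x * n)) =
        n⁻¹ * ((ν x)⁻¹ * ((s x)⁻¹ * x) * n) by group, h1 _ this n hn]
      simpa using this), s3 x n (mN n hn), mul_assoc]
  have r4 : ∀ n ∈ N, ρ n = n := fun n hn => by
    simp only [ρ]
    rw [un n n hn (by simp [s2 n (mN n hn)]), s2 n (mN n hn), one_mul]
  have r5 : ∀ x ∈ Γ, ∀ n ∈ N, ρ (n * x) = n * ρ x := fun x hx n hn => by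
    have m1 := F.nz x hx n hn
    have := h1 _ (r0 x) _ m1
    rw [show n * x = x * (x⁻¹ * n * x) by group, r3 x _ m1]
    calc ρ x * (x⁻¹ * n * x) = ρ x * (x⁻¹ * n * x * ((ρ x)⁻¹ * x)) * ((ρ x)⁻¹ * x)⁻¹ := by group
      _ = n * ρ x := by rw [← this]; group
  have dec : ∀ x ∈ Γ, ∃ y ∈ Γ, ∃ v ∈ V, ρ x = y ∧ x = y * v := fun x hx =>
    ⟨_, r1 x hx, _, r0 x, rfl, by group⟩
  refine ⟨fun x => W (ρ x), ⟨?_, fun g hg => ?_, fun g hg => ?_⟩, fun x v hv => ?_, fun x hx => ?_⟩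
  · rintro x hx y hy (o | o)
    · obtain ⟨y', hy', v, hv, e, rfl⟩ := dec y hy
      rw [r5 _ hy x o, r4 x o, e, (h3 x hx y' hy' v hv).1, h.co x hx y' hy' (.inl o)]
    · obtain ⟨x', hx', v, hv, e, rfl⟩ := dec x hx
      rw [r3 _ y o, r4 y o, e, (h3 x' hx' y hy v hv).2, h.co x' hx' y hy (.inr o), mul_smul,
        h2 v hv y o]
  · rw [r4 g hg, h.dw g hg]
  · rw [r4 g hg, h.mw g hg]
  · simp only [r2 x v hv]
  · obtain ⟨y, hy, v, hv, e, rfl⟩ := dec x hx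
    have b := F.ab _ (h.bfx F O hy (le hv))
    have c : S (dv (W v) - (v • T - T)) = 0 := by
      have := F.ab (W v - ω 1 1) fun n hn => by
        have a1 := (h3 n (F.le hn) 1 (one_mem _) v hv).1
        have a2 := (h3 1 (one_mem _) n (F.le hn) v hv).2
        have c1 := O.co n (F.le hn) 1 (one_mem _) 1 (one_mem _)
        have c2 := O.co 1 (one_mem _) 1 (one_mem _) n (F.le hn)
        have a := h.co n (F.le hn) v (le hv) (.inl hn)
        have b := h.co v (le hv) n (F.le hn) (.inr hn)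
        rw [h1 v hv n hn, h2 v hv n hn] at b
        simp only [one_mul, mul_one, one_smul] at a1 a2 c1 c2
        rw [smul_sub]
        linear_combination (norm := abel) b - a + a1 - a2 - c1 - c2
      rwa [map_sub, O.dz 1 (one_mem _) 1 (one_mem _), sub_zero, ← sub_zero (dv _), ← sub_self T,
        ← congrArg (· - T) (h4 v hv)] at this
    have d := F.se y hy _ (h.dfx F O (le hv))
    rw [c, smul_zero] at d
    simp only [e, mul_smul, h4 v hv, sub_self, sub_zero, map_sub, map_add, F.eq y hy,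
      O.dz y hy v (le hv), map_zero] at b d ⊢
    linear_combination (norm := abel) b - d

/-- normalised data -/
theorem Dt.norm (F : Fr Γ N dv S) (h : Dt Γ N dv m ω W l T) {u : U} {d : D} (hu : Fx N u)
    (hd : Fx N d) (e : m • T - dv l = dv u + m • d) :
    Dt Γ N dv m ω W (l + u) (T - d) ∧ m • (T - d) = dv (l + u) :=
  ⟨⟨h.co, fun g hg => by rw [h.dw g hg, smul_sub, hd g hg]; abel,
    fun g hg => by rw [h.mw g hg, smul_add, hu g hg]; abel⟩, by
    rw [smul_sub, map_add]; linear_combination (norm := abel) e⟩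

end Vale.Agent.P014T.Kc
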