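import Vale.Agent.P014T.Kc.Bas

/-!
# P014T, block KC: maps of data and transfers
-/

set_option autoImplicit false
set_option linter.all false

namespace Vale.Agent.P014T.Kc

variable {G U D E : Type} [Group G] [AddCommGroup U] [AddCommGroup D] [AddCommGroup E]
  [DistribMulAction G U] [DistribMulAction G D] [DistribMulAction G E]
  {Γ N Γ' N' : Subgroup G} {dv : U →+ D} {S S' : D →+ E} {m : ℕ} {ω ω' : G → G → U} {W : G → U}
  {l : U} {T : D} {z z' : G → E}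

section map

variable {G₁ U₁ D₁ E₁ : Type} [Group G₁] [AddCommGroup U₁] [AddCommGroup D₁] [AddCommGroup E₁]
  [DistribMulAction G₁ U₁] [DistribMulAction G₁ D₁] [DistribMulAction G₁ E₁]

/-- a map of frames along `f` -/
structure Mp (Γ N : Subgroup G) (dv : U →+ D) (S : D →+ E) (Γ₁ N₁ : Subgroup G₁) (dv₁ : U₁ →+ D₁)
    (S₁ : D₁ →+ E₁) (f : G₁ → G) (φU : U →+ U₁) (φD : D →+ D₁) (φE : E →+ E₁) : Prop where
  mul : ∀ x ∈ Γ₁, ∀ y ∈ Γ₁, f (x * y) = f x * f y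
  mem : ∀ x ∈ Γ₁, f x ∈ Γ
  geo : ∀ x ∈ N₁, f x ∈ N
  le : N₁ ≤ Γ₁
  eu : ∀ x ∈ Γ₁, ∀ u, φU (f x • u) = x • φU u
  ed : ∀ x ∈ Γ₁, ∀ d, φD (f x • d) = x • φD d
  ee : ∀ x ∈ Γ₁, ∀ e, φE (f x • e) = x • φE e
  dv : ∀ u, dv₁ (φU u) = φD (dv u)
  s : ∀ d, Fx N d → S₁ (φD d) = φE (S d)

variable {Γ₁ N₁ : Subgroup G₁} {dv₁ : U₁ →+ D₁} {S₁ : D₁ →+ E₁} {f : G₁ → G} {φU : U →+ U₁}
  {φD : D →+ D₁} {φE : E →+ E₁}

theorem Om.map (M : Mp Γ N dv S Γ₁ N₁ dv₁ S₁ f φU φD φE) (O : Om Γ dv m ω) :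
    Om Γ₁ dv₁ m fun x y => φU (ω (f x) (f y)) :=
  ⟨fun x hx y hy w hw => by
    rw [← M.eu x hx, M.mul x hx y hy, M.mul y hy w hw, ← map_add, ← map_add,
      O.co _ (M.mem x hx) _ (M.mem y hy) _ (M.mem w hw)],
    fun x hx y hy => by rw [M.dv, O.dz _ (M.mem x hx) _ (M.mem y hy), map_zero],
    fun x hx y hy => by rw [← map_nsmul, O.mz _ (M.mem x hx) _ (M.mem y hy), map_zero]⟩

theorem Dt.map (M : Mp Γ N dv S Γ₁ N₁ dv₁ S₁ f φU φD φE) (h : Dt Γ N dv m ω W l T) :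
    Dt Γ₁ N₁ dv₁ m (fun x y => φU (ω (f x) (f y))) (fun x => φU (W (f x))) (φU l) (φD T) :=
  ⟨fun x hx y hy o => by
    rw [← M.eu x hx, M.mul x hx y hy, ← map_add, ← map_add,
      h.co _ (M.mem x hx) _ (M.mem y hy) (o.imp (M.geo x) (M.geo y))],
    fun g hg => by rw [M.dv, h.dw _ (M.geo g hg), map_sub, M.ed g (M.le hg)],
    fun g hg => by rw [← map_nsmul, h.mw _ (M.geo g hg), map_sub, M.eu g (M.le hg)]⟩

/-- functoriality -/
theorem Kc.map (F : Fr Γ N dv S) (O : Om Γ dv m ω) (M : Mp Γ N dv S Γ₁ N₁ dv₁ S₁ f φU φD φE)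
    (k : Kc Γ N dv S m ω z) :
    Kc Γ₁ N₁ dv₁ S₁ m (fun x y => φU (ω (f x) (f y))) fun x => φE (z (f x)) := by
  obtain ⟨W, l, T, Q, h, q, e⟩ := k
  refine ⟨_, _, _, φE Q, h.map M, ?_, fun x hx => ?_⟩
  · rw [← map_nsmul, q, ← M.s _ (h.efx F), map_sub, map_nsmul, M.dv]
  · dsimp only
    rw [e _ (M.mem x hx), map_add, ← M.s _ (h.dfx F O (M.mem x hx)), map_sub φD, map_sub φD,
      map_sub φE, M.ed x hx, M.ee x hx, M.dv]

end map

/-- additivity in the map to `E` -/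
theorem Kc.add_s {S₁ S₂ : D →+ E} {z₁ z₂ : G → E} (F₁ : Fr Γ N dv S₁) (F₂ : Fr Γ N dv S₂)
    (O : Om Γ dv m ω) (k₁ : Kc Γ N dv S₁ m ω z₁) (k₂ : Kc Γ N dv S₂ m ω z₂)
    (e : ∀ d, Fx N d → S d = S₁ d + S₂ d) : Kc Γ N dv S m ω (z₁ + z₂) := by
  obtain ⟨W, l, T, Q, h, q, f⟩ := k₁
  obtain ⟨W', l', T', Q', h', q', f'⟩ := k₂
  obtain ⟨u, hu⟩ := F₁.h90 (W' - W) fun g hg k hk => by
    simp only [Pi.sub_apply, smul_sub]
    linear_combination (norm := abel) h'.co g (F₁.le hg) k (F₁.le hk) (.inl hg) -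
      h.co g (F₁.le hg) k (F₁.le hk) (.inl hg)
  simp only [Pi.sub_apply] at hu
  have t : Fx N (T' - T - dv u) := fun n hn => by
    have := congrArg dv (hu n hn)
    rw [map_sub, map_sub, h.dw n hn, h'.dw n hn, F₁.eq n (F₁.le hn)] at this
    simp only [smul_sub]
    linear_combination (norm := abel) this
  have a : Fx N (l' - l - m • u) := fun n hn => by
    have := congrArg (m • ·) (hu n hn)
    simp only [smul_sub] at this
    rw [h.mw n hn, h'.mw n hn] at this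
    simp only [smul_sub, sm_n]
    linear_combination (norm := abel) this
  refine ⟨W, l, T, Q + (Q' - S₂ (T' - T - dv u)), h, ?_, fun x hx => ?_⟩
  · have := F₂.ab _ a
    rw [e _ (h.efx F₁), smul_add, smul_sub, q, q']
    simp only [map_sub, map_nsmul, smul_sub] at this ⊢
    linear_combination (norm := abel) -this
  · have b := F₂.ab _ (F₂.fix (f := fun x => W' x - W x - (x • u - u)) hx (fun n hn => by
      simp only [mul_smul, smul_sub]
      linear_combination (norm := abel) h'.co n (F₁.le hn) x hx (.inl hn) -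
        h.co n (F₁.le hn) x hx (.inl hn) + hu n hn) fun n hn => by
      have := congrArg (x • ·) (hu n hn)
      simp only [mul_smul, smul_sub] at this ⊢
      linear_combination (norm := abel) h'.co x hx n (F₁.le hn) (.inr hn) -
        h.co x hx n (F₁.le hn) (.inr hn) + this)
    rw [Pi.add_apply, f x hx, f' x hx, e _ (h.dfx F₁ O hx), smul_add, smul_sub, ← F₂.se x hx _ t]
    simp only [map_sub, F₂.eq x hx, smul_sub] at b ⊢
    linear_combination (norm := abel) b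

/-! ### transversals -/

section tr

variable {X : Type} {r : X → G} {p : G → X → X}

/-- the transfer cocycle -/
def ta (r : X → G) (p : G → X → X) (x : G) (i : X) : G := (r (p x i))⁻¹ * x * r i

theorem ta_eq (x : G) (i : X) : r (p x i) * ta r p x i = x * r i := by simp [ta, mul_assoc]

theorem Tr.ta_mem (t : Tr Γ Γ' r p) {x : G} (hx : x ∈ Γ) (i : X) : ta r p x i ∈ Γ' := t.act x hx i

theorem Tr.mul (t : Tr Γ Γ' r p) {x y : G} (hx : x ∈ Γ) (hy : y ∈ Γ) (i : X) :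
    p (x * y) i = p x (p y i) := t.un _ _ (by
  have := mul_mem (t.act _ (mul_mem hx hy) i) (inv_mem (mul_mem (t.act x hx (p y i)) (t.act y hy i)))
  simpa [mul_assoc] using this)

theorem Tr.ta_mul (t : Tr Γ Γ' r p) {x y : G} (hx : x ∈ Γ) (hy : y ∈ Γ) (i : X) :
    ta r p (x * y) i = ta r p x (p y i) * ta r p y i := by
  simp only [ta, t.mul hx hy]; group

theorem Tr.fix (t : Tr Γ Γ' r p) {x : G} (hx : x ∈ Γ) {i : X} (h : (r i)⁻¹ * x * r i ∈ Γ') :
    p x i = i := t.un _ _ (by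
  have := mul_mem (t.act x hx i) (inv_mem h)
  simpa [mul_assoc] using this)

theorem Tr.one (t : Tr Γ Γ' r p) (i : X) : p 1 i = i := t.fix (one_mem _) (by simp)

theorem Tr.bij (t : Tr Γ Γ' r p) {x : G} (hx : x ∈ Γ) : Function.Bijective (p x) :=
  Function.bijective_iff_has_inverse.2 ⟨p x⁻¹,
    fun i => by rw [← t.mul (inv_mem hx) hx, inv_mul_cancel, t.one],
    fun i => by rw [← t.mul hx (inv_mem hx), mul_inv_cancel, t.one]⟩

/-- transversals from a family which meets every coset once -/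
theorem Tr.of (le : Γ' ≤ Γ) (mem : ∀ i, r i ∈ Γ) (ex : ∀ x ∈ Γ, ∃ i, (r i)⁻¹ * x ∈ Γ')
    (un : ∀ i j, (r i)⁻¹ * r j ∈ Γ' → i = j) : ∃ p, Tr Γ Γ' r p := by
  classical
  have : ∀ x i, ∃ j, x ∈ Γ → (r j)⁻¹ * x * r i ∈ Γ' := fun x i => by
    by_cases hx : x ∈ Γ
    · exact (ex _ (mul_mem hx (mem i))).imp fun j h _ => by rwa [mul_assoc]
    · exact ⟨i, fun h => (hx h).elim⟩
  choose p hp using this
  exact ⟨p, le, mem, fun x hx i => hp x i hx, un⟩

variable [Fintype X]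

theorem Tr.sum (t : Tr Γ Γ' r p) {x : G} (hx : x ∈ Γ) {A : Type} [AddCommMonoid A] (f : X → A) :
    ∑ i, f (p x i) = ∑ i, f i := (t.bij hx).sum_comp f

/-- corestriction of one cochains -/
def co1 {A : Type} [AddCommGroup A] [DistribMulAction G A] (r : X → G) (p : G → X → X)
    (c : G → A) (x : G) : A := ∑ i, r (p x i) • c (ta r p x i)

/-- corestriction of two cochains -/
def co2 (r : X → G) (p : G → X → X) (ω : G → G → U) (x y : G) : U :=
  ∑ i, r (p x (p y i)) • ω (ta r p x (p y i)) (ta r p y i)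

theorem Tr.d0 (t : Tr Γ Γ' r p) {x : G} (hx : x ∈ Γ) {A : Type} [AddCommGroup A]
    [DistribMulAction G A] (a : A) :
    ∑ i, r (p x i) • (ta r p x i • a - a) = x • ∑ i, r i • a - ∑ i, r i • a := by
  simp only [smul_sub, Finset.sum_sub_distrib, ← mul_smul, ta_eq, Finset.smul_sum]
  rw [t.sum hx fun i => r i • a]

theorem Tr.d1 (t : Tr Γ Γ' r p) {x y : G} (hx : x ∈ Γ) (hy : y ∈ Γ) {A : Type} [AddCommGroup A]
    [DistribMulAction G A] (c : G → A) :
    co1 r p c x + x • co1 r p c y - co1 r p c (x * y) = ∑ i, r (p x (p y i)) •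
      (c (ta r p x (p y i)) + ta r p x (p y i) • c (ta r p y i) -
        c (ta r p x (p y i) * ta r p y i)) := by
  simp only [co1, smul_add, smul_sub, Finset.sum_sub_distrib, Finset.sum_add_distrib, ← mul_smul,
    ta_eq, Finset.smul_sum, t.ta_mul hx hy, t.mul hx hy]
  rw [t.sum hy fun i => r (p x i) • c (ta r p x i)]

theorem Om.tr (t : Tr Γ Γ' r p) (eq : ∀ x ∈ Γ, ∀ u, dv (x • u) = x • dv u) (O : Om Γ' dv m ω) :
    Om Γ dv m (co2 r p ω) := by
  refine ⟨fun x hx y hy w hw => ?_, fun x hx y hy => ?_, fun x hx y hy => ?_⟩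
  · simp only [co2, Finset.smul_sum, t.ta_mul hx hy, t.ta_mul hy hw, t.mul hx hy, t.mul hy hw]
    rw [← t.sum hw fun i => r (p x (p y i)) • ω (ta r p x (p y i)) (ta r p y i),
      ← Finset.sum_add_distrib, ← Finset.sum_add_distrib]
    refine Finset.sum_congr rfl fun i _ => ?_
    rw [← mul_smul, ← ta_eq, mul_smul, ← smul_add, ← smul_add,
      O.co _ (t.ta_mem hx _) _ (t.ta_mem hy _) _ (t.ta_mem hw _)]
  · simp only [co2, map_sum, eq _ (t.mem _), O.dz _ (t.ta_mem hx _) _ (t.ta_mem hy _), smul_zero,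
      Finset.sum_const_zero]
  · simp only [co2, Finset.smul_sum, ← sm_n, O.mz _ (t.ta_mem hx _) _ (t.ta_mem hy _), smul_zero,
      Finset.sum_const_zero]

/-- transfer of the data -/
theorem Dt.tr (t : Tr Γ Γ' r p) (le : N ≤ Γ) (eq : ∀ x ∈ Γ, ∀ u, dv (x • u) = x • dv u)
    (hN : ∀ n ∈ N, ∀ i, ta r p n i ∈ N') (h : Dt Γ' N' dv m ω W l T) :
    Dt Γ N dv m (co2 r p ω) (co1 r p W) (∑ i, r i • l) (∑ i, r i • T) := by
  refine ⟨fun x hx y hy o => ?_, fun g hg => ?_, fun g hg => ?_⟩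
  · rw [add_comm, ← eq_sub_iff_add_eq, t.d1 hx hy, co2]
    refine Finset.sum_congr rfl fun i _ => ?_
    rw [← h.co _ (t.ta_mem hx _) _ (t.ta_mem hy _) (o.imp (hN x · _) (hN y · _)),
      add_sub_cancel_left]
  · rw [← t.d0 (le hg), co1, map_sum]
    exact Finset.sum_congr rfl fun i _ => by rw [eq _ (t.mem _), h.dw _ (hN g hg i)]
  · rw [← t.d0 (le hg), co1, Finset.smul_sum]
    exact Finset.sum_congr rfl fun i _ => by rw [← sm_n, h.mw _ (hN g hg i)]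

theorem Tr.dd (t : Tr Γ Γ' r p) (eq : ∀ x ∈ Γ, ∀ u, dv (x • u) = x • dv u) {x : G} (hx : x ∈ Γ) :
    dv (co1 r p W x) - (x • ∑ i, r i • T - ∑ i, r i • T) =
      ∑ i, r (p x i) • (dv (W (ta r p x i)) - (ta r p x i • T - T)) := by
  rw [← t.d0 hx, co1, map_sum, ← Finset.sum_sub_distrib]
  exact Finset.sum_congr rfl fun i _ => by rw [eq _ (t.mem _), ← smul_sub]

theorem Tr.de (t : Tr Γ Γ' r p) (eq : ∀ x ∈ Γ, ∀ u, dv (x • u) = x • dv u) :
    m • ∑ i, r i • T - dv (∑ i, r i • l) = ∑ i, r i • (m • T - dv l) := by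
  simp only [Finset.smul_sum, map_sum, eq _ (t.mem _), smul_sub, sm_n, Finset.sum_sub_distrib]

theorem Fr.mono (F : Fr Γ N dv S) (le : Γ' ≤ Γ) (le' : N ≤ Γ') : Fr Γ' N dv S :=
  ⟨le', fun x hx => F.nz x (le hx), fun x hx => F.eq x (le hx), fun x hx => F.se x (le hx), F.ab,
    F.tr, F.h90, F.fre⟩

/-- transfer for an extension of the constants -/
theorem Kc.trC (F : Fr Γ N dv S) (t : Tr Γ Γ' r p) (le : N ≤ Γ') (O : Om Γ' dv m ω)
    (k : Kc Γ' N dv S m ω z) : Kc Γ N dv S m (co2 r p ω) (co1 r p z) := by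
  obtain ⟨W, l, T, Q, h, q, f⟩ := k
  have F' := F.mono t.le le
  refine ⟨_, _, _, ∑ i, r i • Q, h.tr t F.le F.eq fun n hn i => ?_, ?_, fun x hx => ?_⟩
  · have := F.nz _ (t.mem i) n hn
    rwa [ta, t.fix (F.le hn) (le this)]
  · rw [t.de F.eq, map_sum, Finset.smul_sum]
    exact Finset.sum_congr rfl fun i _ => by rw [F.se _ (t.mem i) _ (h.efx F'), ← sm_n, q]
  · rw [t.dd F.eq hx, ← t.d0 hx, map_sum, ← Finset.sum_add_distrib, co1]
    exact Finset.sum_congr rfl fun i _ => by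
      rw [F.se _ (t.mem _) _ (h.dfx F' O (t.ta_mem hx i)), f _ (t.ta_mem hx i), smul_add]

/-- transfer for a geometric covering -/
theorem Kc.trG (F : Fr Γ N dv S) (F' : Fr Γ' N' dv S') (t : Tr Γ Γ' r p) (hr : ∀ i, r i ∈ N)
    (hN : ∀ n ∈ N, n ∈ Γ' → n ∈ N') (hS : ∀ d, Fx N' d → S (∑ i, r i • d) = S' d)
    (O : Om Γ' dv m ω) (k : Kc Γ' N' dv S' m ω z') :
    ∃ z, Kc Γ N dv S m (co2 r p ω) z ∧ ∀ x ∈ Γ', z x = z' x := by
  obtain ⟨W, l, T, Q, h, q, f⟩ := k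
  refine ⟨_, ⟨_, _, _, Q, h.tr t F.le F.eq fun n hn i => hN _ (mul_mem (mul_mem (inv_mem (hr _)) hn)
    (hr i)) (t.ta_mem (F.le hn) i), ?_, fun _ _ => rfl⟩, fun x hx => ?_⟩
  · rw [t.de F.eq, hS _ (h.efx F'), q]
  · have e : ∀ i, dv (W (ta r p x i)) - (ta r p x i • T - T) = dv (W x) - (x • T - T) := fun i => by
      have a : x⁻¹ * ta r p x i ∈ N' := hN _ (by
        have := mul_mem (F.nz x (t.le hx) _ (inv_mem (hr (p x i)))) (hr i)
        simpa only [ta, mul_assoc] using this) (mul_mem (inv_mem hx) (t.ta_mem (t.le hx) i))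
      rw [← h.dr F' O hx a, mul_inv_cancel_left]
    simp only [t.dd F.eq (t.le hx), e]
    rw [t.sum (t.le hx) fun i => r i • (dv (W x) - (x • T - T)), hS _ (h.dfx F' O hx), f x hx]

end tr

end Vale.Agent.P014T.Kc
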