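import Mathlib

/-!
# P014T, block KC: from two cocycles which split geometrically to one cocycles (diagram chase)
-/

set_option autoImplicit false
set_option linter.all false

namespace Vale.Agent.P014T.Kc

variable {G U D E : Type} [Group G] [AddCommGroup U] [AddCommGroup D] [AddCommGroup E]
  [DistribMulAction G U] [DistribMulAction G D] [DistribMulAction G E]

/-- `x` is fixed by `N` -/
def Fx {A : Type} [AddCommGroup A] [DistribMulAction G A] (N : Subgroup G) (x : A) : Prop :=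
  ∀ n ∈ N, n • x = x

/-- every one cocycle of `N` is a coboundary -/
def H1 (N : Subgroup G) (A : Type) [AddCommGroup A] [DistribMulAction G A] : Prop :=
  ∀ c : G → A, (∀ g ∈ N, ∀ h ∈ N, c (g * h) = c g + g • c h) → ∃ u : A, ∀ g ∈ N, c g = g • u - u

/-- the frame -/
structure Fr (Γ N : Subgroup G) (dv : U →+ D) (S : D →+ E) : Prop where
  le : N ≤ Γ
  nz : ∀ x ∈ Γ, ∀ n ∈ N, x⁻¹ * n * x ∈ N
  eq : ∀ x ∈ Γ, ∀ u, dv (x • u) = x • dv u
  se : ∀ x ∈ Γ, ∀ d, Fx N d → S (x • d) = x • S d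
  ab : ∀ u, Fx N u → S (dv u) = 0
  tr : ∀ e : E, Fx N e
  h90 : H1 N U
  fre : H1 N D

/-- two cocycles with constant values -/
structure Om (Γ : Subgroup G) (dv : U →+ D) (m : ℕ) (ω : G → G → U) : Prop where
  co : ∀ x ∈ Γ, ∀ y ∈ Γ, ∀ w ∈ Γ, x • ω y w + ω x (y * w) = ω (x * y) w + ω x y
  dz : ∀ x ∈ Γ, ∀ y ∈ Γ, dv (ω x y) = 0
  mz : ∀ x ∈ Γ, ∀ y ∈ Γ, m • ω x y = 0

/-- splitting data -/
structure Dt (Γ N : Subgroup G) (dv : U →+ D) (m : ℕ) (ω : G → G → U) (W : G → U) (l : U)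
    (T : D) : Prop where
  co : ∀ x ∈ Γ, ∀ y ∈ Γ, x ∈ N ∨ y ∈ N → W (x * y) + ω x y = W x + x • W y
  dw : ∀ g ∈ N, dv (W g) = g • T - T
  mw : ∀ g ∈ N, m • W g = g • l - l

/-- `z` is a class attached to `ω` -/
def Kc (Γ N : Subgroup G) (dv : U →+ D) (S : D →+ E) (m : ℕ) (ω : G → G → U) (z : G → E) : Prop :=
  ∃ (W : G → U) (l : U) (T : D) (Q : E), Dt Γ N dv m ω W l T ∧ m • Q = S (m • T - dv l) ∧
    ∀ x ∈ Γ, z x = S (dv (W x) - (x • T - T)) + (x • Q - Q)

/-- a left transversal `r` of `Γ'` in `Γ` with the action `p` on the indices -/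
structure Tr (Γ Γ' : Subgroup G) {X : Type} (r : X → G) (p : G → X → X) : Prop where
  le : Γ' ≤ Γ
  mem : ∀ i, r i ∈ Γ
  act : ∀ x ∈ Γ, ∀ i, (r (p x i))⁻¹ * x * r i ∈ Γ'
  un : ∀ i j, (r i)⁻¹ * r j ∈ Γ' → i = j

theorem sm_n {A : Type} [AddCommGroup A] [DistribMulAction G A] (g : G) (m : ℕ) (x : A) :
    g • m • x = m • g • x := map_nsmul (DistribMulAction.toAddMonoidHom A g) m x

theorem sm_z {A : Type} [AddCommGroup A] [DistribMulAction G A] (g : G) (m : ℤ) (x : A) :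
    g • m • x = m • g • x := map_zsmul (DistribMulAction.toAddMonoidHom A g) m x

variable {Γ N : Subgroup G} {dv : U →+ D} {S : D →+ E} {m : ℕ} {ω ω' : G → G → U} {W : G → U}
  {l : U} {T : D} {z z' : G → E}

theorem Fr.nz' (F : Fr Γ N dv S) {x n : G} (hx : x ∈ Γ) (hn : n ∈ N) : x * n * x⁻¹ ∈ N := by
  simpa using F.nz _ (inv_mem hx) n hn

theorem Fr.fx (F : Fr Γ N dv S) {A : Type} [AddCommGroup A] [DistribMulAction G A] {a : A}
    (h : Fx N a) {x : G} (hx : x ∈ Γ) : Fx N (x • a) := fun n hn => by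
  conv_rhs => rw [← h _ (F.nz x hx n hn)]
  simp only [← mul_smul, mul_assoc, mul_inv_cancel_left]

theorem Fx.add {A : Type} [AddCommGroup A] [DistribMulAction G A] {a b : A} (h : Fx N a)
    (k : Fx N b) : Fx N (a + b) := fun n hn => by rw [smul_add, h n hn, k n hn]

theorem Fx.sub {A : Type} [AddCommGroup A] [DistribMulAction G A] {a b : A} (h : Fx N a)
    (k : Fx N b) : Fx N (a - b) := fun n hn => by rw [smul_sub, h n hn, k n hn]

/-- a function which is equivariant on the left and invariant on the right has fixed values -/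
theorem Fr.fix (F : Fr Γ N dv S) {A : Type} [AddCommGroup A] [DistribMulAction G A] {f : G → A}
    {x : G} (hx : x ∈ Γ) (h1 : ∀ n ∈ N, f (n * x) = n • f x) (h2 : ∀ n ∈ N, f (x * n) = f x) :
    Fx N (f x) := fun n hn => by
  rw [← h1 n hn, ← h2 _ (F.nz x hx n hn)]
  congr 1
  group

section one

variable (F : Fr Γ N dv S) (O : Om Γ dv m ω) (h : Dt Γ N dv m ω W l T)
include F O h

theorem Dt.dl {x n : G} (hx : x ∈ Γ) (hn : n ∈ N) :
    dv (W (n * x)) - ((n * x) • T - T) = n • (dv (W x) - (x • T - T)) := by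
  have e := congrArg dv (h.co n (F.le hn) x hx (.inl hn))
  rw [map_add, map_add, O.dz n (F.le hn) x hx, add_zero, F.eq n (F.le hn), h.dw n hn] at e
  rw [e, mul_smul, smul_sub, smul_sub]; abel

theorem Dt.dr {x n : G} (hx : x ∈ Γ) (hn : n ∈ N) :
    dv (W (x * n)) - ((x * n) • T - T) = dv (W x) - (x • T - T) := by
  have e := congrArg dv (h.co x hx n (F.le hn) (.inr hn))
  rw [map_add, map_add, O.dz x hx n (F.le hn), add_zero, F.eq x hx, h.dw n hn] at e
  rw [e, mul_smul, smul_sub]; abel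

/-- the divisors are fixed -/
theorem Dt.dfx {x : G} (hx : x ∈ Γ) : Fx N (dv (W x) - (x • T - T)) :=
  F.fix (f := fun x => dv (W x) - (x • T - T)) hx (fun _ hn => h.dl F O hx hn)
    fun _ hn => h.dr F O hx hn

theorem Dt.hl {x n : G} (hx : x ∈ Γ) (hn : n ∈ N) :
    m • W (n * x) - ((n * x) • l - l) = n • (m • W x - (x • l - l)) := by
  have e := congrArg (m • ·) (h.co n (F.le hn) x hx (.inl hn))
  simp only [smul_add] at e
  rw [O.mz n (F.le hn) x hx, add_zero, h.mw n hn] at e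
  rw [e, mul_smul, smul_sub, smul_sub, sm_n]; abel

theorem Dt.hr {x n : G} (hx : x ∈ Γ) (hn : n ∈ N) :
    m • W (x * n) - ((x * n) • l - l) = m • W x - (x • l - l) := by
  have e := congrArg (m • ·) (h.co x hx n (F.le hn) (.inr hn))
  simp only [smul_add] at e
  rw [O.mz x hx n (F.le hn), add_zero, ← sm_n, h.mw n hn] at e
  rw [e, mul_smul, smul_sub]; abel

/-- the functions `h x` are fixed -/
theorem Dt.hfx {x : G} (hx : x ∈ Γ) : Fx N (m • W x - (x • l - l)) :=
  F.fix (f := fun x => m • W x - (x • l - l)) hx (fun _ hn => h.hl F O hx hn)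
    fun _ hn => h.hr F O hx hn

omit O in
theorem Dt.efx : Fx N (m • T - dv l) := fun n hn => by
  have e := congrArg dv (h.mw n hn)
  rw [map_nsmul, h.dw n hn, map_sub, F.eq n (F.le hn), smul_sub] at e
  rw [smul_sub, sm_n, ← sub_eq_zero, ← sub_eq_zero.2 e]; abel

/-- the cocycle of Lichtenbaum is fixed -/
theorem Dt.bfx {x y : G} (hx : x ∈ Γ) (hy : y ∈ Γ) :
    Fx N (W x + x • W y - W (x * y) - ω x y) := fun n hn => by
  have m1 := F.nz x hx n hn
  have m2 := F.nz y hy _ m1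
  have e1 : n * x = x * (x⁻¹ * n * x) := by group
  have e2 : x⁻¹ * n * x * y = y * (y⁻¹ * (x⁻¹ * n * x) * y) := by group
  generalize x⁻¹ * n * x = n' at *
  generalize y⁻¹ * n' * y = n'' at *
  have a1 := h.co n (F.le hn) x hx (.inl hn)
  have a2 := h.co n (F.le hn) _ (mul_mem hx hy) (.inl hn)
  have a3 := h.co x hx n' (F.le m1) (.inr m1)
  have a4 := congrArg (x • ·) (h.co n' (F.le m1) y hy (.inl m1))
  have a5 := congrArg (x • ·) (h.co y hy n'' (F.le m2) (.inr m2))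
  have a6 := h.co _ (mul_mem hx hy) n'' (F.le m2) (.inr m2)
  have c1 := O.co n (F.le hn) x hx y hy
  have c2 := O.co x hx n' (F.le m1) y hy
  have c3 := O.co x hx y hy n'' (F.le m2)
  have e3 : n * (x * y) = x * y * n'' := by rw [← mul_assoc, e1, mul_assoc, e2, mul_assoc]
  simp only [smul_add, ← mul_smul] at a4 a5
  rw [e1] at a1 c1
  rw [e2] at a4 c2
  rw [e3] at a2
  simp only [smul_add, smul_sub, ← mul_smul, e1]
  linear_combination (norm := abel) -a1 + a2 + a3 - a4 + a5 - a6 - c1 + c2 - c3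

end one

theorem Kc.geo (F : Fr Γ N dv S) (O : Om Γ dv m ω) (k : Kc Γ N dv S m ω z) {x n : G} (hx : x ∈ Γ)
    (hn : n ∈ N) : z (x * n) = z x := by
  obtain ⟨W, l, T, Q, h, -, e⟩ := k
  rw [e _ (mul_mem hx (F.le hn)), e x hx, h.dr F O hx hn, mul_smul, F.tr Q n hn]

theorem Kc.tor (F : Fr Γ N dv S) (O : Om Γ dv m ω) (k : Kc Γ N dv S m ω z) {x : G} (hx : x ∈ Γ) :
    m • z x = 0 := by
  obtain ⟨W, l, T, Q, h, q, e⟩ := k
  rw [e x hx, smul_add, smul_sub, ← sm_n, q, ← F.se x hx _ (h.efx F), ← map_nsmul, ← map_sub,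
    ← map_add, ← F.ab _ (h.hfx F O hx)]
  congr 1
  simp only [map_sub, map_nsmul, F.eq x hx, smul_sub, sm_n]
  abel

theorem Kc.coc (F : Fr Γ N dv S) (O : Om Γ dv m ω) (k : Kc Γ N dv S m ω z) {x y : G} (hx : x ∈ Γ)
    (hy : y ∈ Γ) : z (x * y) = z x + x • z y := by
  obtain ⟨W, l, T, Q, h, -, e⟩ := k
  have b := F.ab _ (h.bfx F O hx hy)
  rw [e _ (mul_mem hx hy), e x hx, e y hy, smul_add, ← F.se x hx _ (h.dfx F O hy)]
  simp only [map_sub, map_add, F.eq x hx, O.dz x hx y hy, smul_sub, mul_smul, map_zero] at b ⊢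
  linear_combination (norm := abel) -b

theorem Kc.congr (k : Kc Γ N dv S m ω z) (le : N ≤ Γ) (e : ∀ x ∈ Γ, ∀ y ∈ Γ, ω' x y = ω x y)
    (e' : ∀ x ∈ Γ, z' x = z x) : Kc Γ N dv S m ω' z' := by
  obtain ⟨W, l, T, Q, h, q, f⟩ := k
  exact ⟨W, l, T, Q, ⟨fun x hx y hy o => e x hx y hy ▸ h.co x hx y hy o, h.dw, h.mw⟩, q,
    fun x hx => (e' x hx).trans (f x hx)⟩

theorem Kc.add (k : Kc Γ N dv S m ω z) (k' : Kc Γ N dv S m ω' z') :
    Kc Γ N dv S m (ω + ω') (z + z') := by
  obtain ⟨W, l, T, Q, h, q, f⟩ := k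
  obtain ⟨W', l', T', Q', h', q', f'⟩ := k'
  refine ⟨W + W', l + l', T + T', Q + Q', ⟨fun x hx y hy o => ?_, fun g hg => ?_, fun g hg => ?_⟩,
    ?_, fun x hx => ?_⟩
  · simp only [Pi.add_apply, smul_add]
    linear_combination (norm := abel) h.co x hx y hy o + h'.co x hx y hy o
  · rw [Pi.add_apply, map_add, h.dw g hg, h'.dw g hg, smul_add]; abel
  · rw [Pi.add_apply, smul_add, h.mw g hg, h'.mw g hg, smul_add]; abel
  · rw [smul_add, q, q', ← map_add, smul_add, map_add dv]; congr 1; abel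
  · simp only [Pi.add_apply, f x hx, f' x hx, map_add, map_sub, smul_add]; abel

theorem Kc.zsmul (k : Kc Γ N dv S m ω z) (c : ℤ) : Kc Γ N dv S m (c • ω) (c • z) := by
  obtain ⟨W, l, T, Q, h, q, f⟩ := k
  refine ⟨c • W, c • l, c • T, c • Q, ⟨fun x hx y hy o => ?_, fun g hg => ?_, fun g hg => ?_⟩,
    ?_, fun x hx => ?_⟩
  · simp only [Pi.smul_apply, sm_z, ← smul_add, h.co x hx y hy o]
  · rw [Pi.smul_apply, map_zsmul, h.dw g hg, sm_z, smul_sub]
  · rw [Pi.smul_apply, smul_comm, h.mw g hg, sm_z, smul_sub]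
  · rw [smul_comm, q, ← map_zsmul, smul_sub, smul_comm, map_zsmul]
  · simp only [Pi.smul_apply, f x hx, map_zsmul, map_sub, smul_add, smul_sub, sm_z]

theorem Kc.neg (k : Kc Γ N dv S m ω z) : Kc Γ N dv S m (-ω) (-z) := by
  simpa using k.zsmul (-1)

theorem Kc.sub (k : Kc Γ N dv S m ω z) (k' : Kc Γ N dv S m ω' z') :
    Kc Γ N dv S m (ω - ω') (z - z') := by
  simpa only [sub_eq_add_neg] using k.add k'.neg

/-- coboundaries of constant cochains -/
theorem Kc.cob (k : Kc Γ N dv S m ω z) (le : N ≤ Γ) (v : G → U) (dz : ∀ x ∈ Γ, dv (v x) = 0)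
    (mz : ∀ x ∈ Γ, m • v x = 0)
    (e : ∀ x ∈ Γ, ∀ y ∈ Γ, ω' x y = ω x y + (v x + x • v y - v (x * y))) : Kc Γ N dv S m ω' z := by
  obtain ⟨W, l, T, Q, h, q, f⟩ := k
  refine ⟨W + v, l, T, Q, ⟨fun x hx y hy o => ?_, fun g hg => ?_, fun g hg => ?_⟩, q,
    fun x hx => ?_⟩
  · simp only [Pi.add_apply, smul_add, e x hx y hy]
    linear_combination (norm := abel) h.co x hx y hy o
  · rw [Pi.add_apply, map_add, h.dw g hg, dz g (le hg), add_zero]
  · rw [Pi.add_apply, smul_add, h.mw g hg, mz g (le hg), add_zero]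
  · rw [Pi.add_apply, map_add, dz x hx, add_zero, f x hx]

theorem Kc.cob' (k : Kc Γ N dv S m ω z) (q : E) (hq : m • q = 0)
    (e : ∀ x ∈ Γ, z' x = z x + (x • q - q)) : Kc Γ N dv S m ω z' := by
  obtain ⟨W, l, T, Q, h, a, f⟩ := k
  exact ⟨W, l, T, Q + q, h, by rw [smul_add, hq, add_zero, a], fun x hx => by
    rw [e x hx, f x hx, smul_add]; abel⟩

theorem Kc.zero (F : Fr Γ N dv S) (k : Kc Γ N dv S m 0 z) :
    ∃ q : E, m • q = 0 ∧ ∀ x ∈ Γ, z x = x • q - q := by
  obtain ⟨W, l, T, Q, h, q, f⟩ := k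
  obtain ⟨u, hu⟩ := F.h90 W fun g hg k hk => by
    simpa using h.co g (F.le hg) k (F.le hk) (.inl hg)
  have t : Fx N (T - dv u) := fun n hn => by
    have := h.dw n hn
    rw [hu n hn, map_sub, F.eq n (F.le hn)] at this
    rw [smul_sub, ← sub_eq_zero, ← sub_eq_zero.2 this.symm]; abel
  have a : Fx N (l - m • u) := fun n hn => by
    have := h.mw n hn
    rw [hu n hn, smul_sub] at this
    rw [smul_sub, sm_n, ← sub_eq_zero, ← sub_eq_zero.2 this.symm]; abel
  refine ⟨Q - S (T - dv u), ?_, fun x hx => ?_⟩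
  · rw [smul_sub, q, ← map_nsmul, ← map_sub, ← neg_eq_zero, ← map_neg, ← F.ab _ a]
    congr 1
    simp only [map_sub, map_nsmul, smul_sub]; abel
  · have b := F.ab _ (F.fix (f := fun x => W x - (x • u - u)) hx (fun n hn => by
      have := h.co n (F.le hn) x hx (.inl hn)
      simp only [Pi.zero_apply, add_zero] at this
      simp only [this, hu n hn, mul_smul, smul_sub]; abel) fun n hn => by
      have := h.co x hx n (F.le hn) (.inr hn)
      simp only [Pi.zero_apply, add_zero] at this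
      simp only [this, hu n hn, mul_smul, smul_sub]; abel)
    rw [f x hx, smul_sub, ← F.se x hx _ t]
    simp only [map_sub, F.eq x hx, smul_sub] at b ⊢
    linear_combination (norm := abel) b

/-- uniqueness -/
theorem Kc.uniq (F : Fr Γ N dv S) (k : Kc Γ N dv S m ω z) (k' : Kc Γ N dv S m ω z') :
    ∃ q : E, m • q = 0 ∧ ∀ x ∈ Γ, z x = z' x + (x • q - q) := by
  have := k.sub k'
  rw [sub_self] at this
  obtain ⟨q, a, b⟩ := this.zero F
  exact ⟨q, a, fun x hx => by rw [← b x hx, Pi.sub_apply]; abel⟩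

/-- existence of the data -/
theorem ex_dt (F : Fr Γ N dv S) (O : Om Γ dv m ω) (η : G → U)
    (hη : ∀ g ∈ N, ∀ h ∈ N, η (g * h) + ω g h = η g + g • η h) :
    ∃ W l T, Dt Γ N dv m ω W l T := by
  classical
  have k1 : ∀ s ∈ Γ, ∃ w : U, (s = 1 → w = η 1) ∧ ∀ g ∈ N,
      s • η (s⁻¹ * g * s) - η g + ω g s - ω s (s⁻¹ * g * s) = g • w - w := fun s hs => by
    by_cases e : s = 1
    · subst e
      refine ⟨η 1, fun _ => rfl, fun g hg => ?_⟩
      have a1 := hη g hg 1 (one_mem _)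
      have a2 := hη 1 (one_mem _) g hg
      simp only [mul_one, one_mul, one_smul, inv_one] at a1 a2 ⊢
      linear_combination (norm := abel) a1 - a2
    obtain ⟨w, hw⟩ := F.h90 (fun g => s • η (s⁻¹ * g * s) - η g + ω g s - ω s (s⁻¹ * g * s))
      fun g hg h hh => by
        have m1 := F.nz s hs g hg
        have m2 := F.nz s hs h hh
        have e0 : s⁻¹ * (g * h) * s = s⁻¹ * g * s * (s⁻¹ * h * s) := by group
        have e1 : g * s = s * (s⁻¹ * g * s) := by group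
        have e2 : h * s = s * (s⁻¹ * h * s) := by group
        simp only [e0]
        generalize s⁻¹ * g * s = g' at *
        generalize s⁻¹ * h * s = h' at *
        have a1 := hη g hg h hh
        have a2 := congrArg (s • ·) (hη g' m1 h' m2)
        have c1 := O.co g (F.le hg) h (F.le hh) s hs
        have c2 := O.co g (F.le hg) s hs h' (F.le m2)
        have c3 := O.co s hs g' (F.le m1) h' (F.le m2)
        simp only [smul_add, smul_sub, ← mul_smul, e1, e2] at a2 c1 c2 ⊢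
        linear_combination (norm := abel) a2 - a1 - c1 + c2 - c3
    exact ⟨w, fun a => (e a).elim, hw⟩
  choose! w w1 hw using k1
  have k2 : ∃ s : G → G, (∀ x, x * (s x)⁻¹ ∈ N) ∧ (∀ x ∈ N, s x = 1) ∧
      ∀ n ∈ N, ∀ x, s (n * x) = s x := by
    refine ⟨fun x => if x ∈ N then 1 else (Quotient.out (QuotientGroup.mk x⁻¹ : G ⧸ N))⁻¹,
      fun x => ?_, fun x hx => if_pos hx, fun n hn x => ?_⟩
    · dsimp only
      split_ifs with e
      · simpa using e
      · simpa using QuotientGroup.eq.1 (Quotient.out_eq' (QuotientGroup.mk x⁻¹ : G ⧸ N)).symm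
    · have : (QuotientGroup.mk (n * x)⁻¹ : G ⧸ N) = QuotientGroup.mk x⁻¹ :=
        QuotientGroup.eq.2 (by simpa using hn)
      simp only [this, N.mul_mem_cancel_left hn]
  obtain ⟨s, s1, s2, s3⟩ := k2
  have s4 : ∀ x ∈ Γ, s x ∈ Γ := fun x hx => by
    simpa using mul_mem (inv_mem (F.le (s1 x))) hx
  let W : G → U := fun x => η (x * (s x)⁻¹) + (x * (s x)⁻¹) • w (s x) - ω (x * (s x)⁻¹) (s x)
  have e0 : ∀ n ∈ N, ∀ x, W (n * s x) = η n + n • w (s x) - ω n (s x) := fun n hn x => by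
    have : s (s x) = s x := by
      rw [← s3 _ (s1 x) (s x), inv_mul_cancel_right]
    simp only [W, s3 n hn, this, mul_inv_cancel_right]
  have e1 : ∀ n ∈ N, W n = η n := fun n hn => by
    have a := hη n hn 1 (one_mem _)
    simp only [W, s2 n hn, inv_one, mul_one, w1 1 (one_mem _) rfl] at a ⊢
    linear_combination (norm := abel) -a
  have co : ∀ x ∈ Γ, ∀ y ∈ Γ, x ∈ N ∨ y ∈ N → W (x * y) + ω x y = W x + x • W y := by
    rintro x hx y hy (o | o)
    · obtain ⟨n, hn, t, ht, rfl, e⟩ : ∃ n ∈ N, ∃ t ∈ Γ, y = n * t ∧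
          ∀ n ∈ N, W (n * t) = η n + n • w t - ω n t :=
        ⟨_, s1 y, _, s4 y hy, by group, fun n hn => e0 n hn y⟩
      have c := O.co x hx n (F.le hn) t ht
      have a := hη x o n hn
      rw [← mul_assoc, e _ (mul_mem o hn), e n hn, e1 x o]
      simp only [smul_add, smul_sub, mul_smul]
      linear_combination (norm := abel) a + c
    · obtain ⟨n, hn, t, ht, rfl, e⟩ : ∃ n ∈ N, ∃ t ∈ Γ, x = n * t ∧
          ∀ n ∈ N, W (n * t) = η n + n • w t - ω n t :=
        ⟨_, s1 x, _, s4 x hx, by group, fun n hn => e0 n hn x⟩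
      have m1 := F.nz' ht o
      have b := congrArg (n • ·) (hw t ht _ m1)
      have e2 : t⁻¹ * (t * y * t⁻¹) * t = y := by group
      have e3 : t * y * t⁻¹ * t = t * y := by group
      have a := hη n hn _ m1
      have c1 := O.co n (F.le hn) _ (F.le m1) t ht
      have c2 := O.co n (F.le hn) t ht y hy
      rw [show n * t * y = n * (t * y * t⁻¹) * t by group, e _ (mul_mem hn m1), e n hn, e1 y o]
      rw [e2] at b
      rw [e3] at c1
      generalize t * y * t⁻¹ = g at *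
      simp only [smul_add, smul_sub, mul_smul] at b ⊢
      linear_combination (norm := abel) a - b + c1 - c2
  obtain ⟨T, hT⟩ := F.fre (fun g => dv (W g)) fun g hg h hh => by
    have := congrArg dv (co g (F.le hg) h (F.le hh) (.inl hg))
    rwa [map_add, map_add, O.dz g (F.le hg) h (F.le hh), add_zero, F.eq g (F.le hg)] at this
  obtain ⟨l, hl⟩ := F.h90 (fun g => m • W g) fun g hg h hh => by
    have := congrArg (m • ·) (co g (F.le hg) h (F.le hh) (.inl hg))
    simp only [smul_add] at this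
    rwa [O.mz g (F.le hg) h (F.le hh), add_zero, ← sm_n] at this
  exact ⟨W, l, T, co, hT, hl⟩

/-- existence -/
theorem ex (F : Fr Γ N dv S) (O : Om Γ dv m ω) (hE : ∀ e : E, ∃ q, m • q = e) (η : G → U)
    (hη : ∀ g ∈ N, ∀ h ∈ N, η (g * h) + ω g h = η g + g • η h) : ∃ z, Kc Γ N dv S m ω z := by
  obtain ⟨W, l, T, h⟩ := ex_dt F O η hη
  obtain ⟨Q, q⟩ := hE (S (m • T - dv l))
  exact ⟨_, W, l, T, Q, h, q, fun _ _ => rfl⟩

end Vale.Agent.P014T.Kc
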