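import Vale.Agent.P014T.Kc.Trw

/-!
# P014T, block KC: evaluation at points (abstract form)
-/

set_option autoImplicit false
set_option linter.all false

namespace Vale.Agent.P014T.Kc

open Finset

variable {G U D E P K : Type} [Group G] [AddCommGroup U] [AddCommGroup D] [AddCommGroup E]
  [AddCommGroup K] [DistribMulAction G U] [DistribMulAction G D] [DistribMulAction G E]
  [MulAction G P] [DistribMulAction G K]

/-- local symbols at the places in `Y` -/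
structure Ls (Γ N : Subgroup G) (dv : U →+ D) (m : ℕ) (Y : Set P) (od : P → D →+ ℤ) (ι : K →+ U)
    (w1 wm : P → U → U → K) : Prop where
  tk : ∀ k : K, Fx N k
  st : ∀ x ∈ Γ, ∀ p ∈ Y, x • p ∈ Y
  oe : ∀ x ∈ Γ, ∀ p d, od (x • p) (x • d) = od p d
  l1 : ∀ p u u' v, w1 p (u + u') v = w1 p u v + w1 p u' v
  r1 : ∀ p u v v', w1 p u (v + v') = w1 p u v + w1 p u v'
  e1 : ∀ x ∈ Γ, ∀ p u v, w1 (x • p) (x • u) (x • v) = x • w1 p u v
  c1 : ∀ p ∈ Y, ∀ c v, w1 p (ι c) v = od p (dv v) • c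
  lm : ∀ p ∈ Y, ∀ u u' v, (m : ℤ) ∣ od p (dv u) → (m : ℤ) ∣ od p (dv u') →
    wm p (u + u') v = wm p u v + wm p u' v
  rm : ∀ p ∈ Y, ∀ u v v', (m : ℤ) ∣ od p (dv v) → (m : ℤ) ∣ od p (dv v') →
    wm p u (v + v') = wm p u v + wm p u v'
  em : ∀ x ∈ Γ, ∀ p ∈ Y, ∀ u v, (m : ℤ) ∣ od p (dv u) → (m : ℤ) ∣ od p (dv v) →
    wm (x • p) (x • u) (x • v) = x • wm p u v
  lv : ∀ p ∈ Y, ∀ u v, (m : ℤ) ∣ od p (dv v) → w1 p u v = wm p (m • u) v
  ns : ∀ p ∈ Y, ∀ u v, (m : ℤ) ∣ od p (dv u) → (m : ℤ) ∣ od p (dv v) → w1 p u v = m • wm p u v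

/-- representatives of finitely many free orbits, with the lifts -/
structure Rp (Γ N : Subgroup G) (R : Finset P) (lf : G → P → G) : Prop where
  geo : ∀ x ∈ Γ, ∀ p ∈ R, lf x p * x⁻¹ ∈ N
  mem : ∀ x ∈ Γ, ∀ p ∈ R, lf x p • p ∈ R
  fr : ∀ n ∈ N, ∀ p ∈ R, n • p ∈ R → n = 1

/-- the divisor of `u` on `Y` is supported by the orbits of `R` -/
def Sp (N : Subgroup G) (dv : U →+ D) (Y : Set P) (od : P → D →+ ℤ) (R : Finset P) (u : U) : Prop :=
  ∀ p ∈ Y, (∀ n ∈ N, n • p ∉ R) → od p (dv u) = 0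

variable {Γ N : Subgroup G} {dv : U →+ D} {S : D →+ E} {m : ℕ} {ω : G → G → U} {W : G → U}
  {l : U} {T : D} {Y : Set P} {od : P → D →+ ℤ} {ι : K →+ U} {w1 wm : P → U → U → K}
  {R : Finset P} {lf : G → P → G} {x y : G} {p : P}

theorem ex_lf (ex : ∀ x ∈ Γ, ∀ p ∈ R, ∃ n ∈ N, (n * x) • p ∈ R)
    (fr : ∀ n ∈ N, ∀ p ∈ R, n • p ∈ R → n = 1) : ∃ lf, Rp Γ N R lf := by
  choose! n h1 h2 using ex
  exact ⟨fun x p => n x p * x, fun x hx p hp => by simpa using h1 x hx p hp, h2, fr⟩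

theorem Rp.un (r : Rp Γ N R lf) (hx : x ∈ Γ) (hp : p ∈ R) {a : G} (h1 : a * x⁻¹ ∈ N)
    (h2 : a • p ∈ R) : lf x p = a := by
  have := r.fr (a * (lf x p)⁻¹) (by simpa [mul_assoc] using mul_mem h1 (inv_mem (r.geo x hx p hp)))
    _ (r.mem x hx p hp) (by rwa [← mul_smul, inv_mul_cancel_right])
  exact (mul_inv_eq_one.1 this).symm

section

variable (F : Fr Γ N dv S) (r : Rp Γ N R lf)
include F r

theorem Rp.lm (hx : x ∈ Γ) (hp : p ∈ R) : lf x p ∈ Γ := by
  simpa using mul_mem (F.le (r.geo x hx p hp)) hx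

theorem Rp.mul (hx : x ∈ Γ) (hy : y ∈ Γ) (hp : p ∈ R) :
    lf (x * y) p = lf x (lf y p • p) * lf y p := by
  have q := r.mem y hy p hp
  refine r.un (mul_mem hx hy) hp ?_ (by rw [mul_smul]; exact r.mem x hx _ q)
  have := mul_mem (F.nz' (r.lm F hx q) (r.geo y hy p hp)) (r.geo x hx _ q)
  simpa [mul_assoc] using this

theorem Rp.fx {A : Type} [AddCommGroup A] [DistribMulAction G A] {a : A} (h : Fx N a) (hx : x ∈ Γ)
    (hp : p ∈ R) : lf x p • a = x • a := by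
  rw [← F.fx h hx _ (r.geo x hx p hp), ← mul_smul, inv_mul_cancel_right]

theorem Rp.sum (hx : x ∈ Γ) {A : Type} [AddCommMonoid A] (f : P → A) :
    ∑ p ∈ R, f (lf x p • p) = ∑ p ∈ R, f p := by
  have k : ∀ x ∈ Γ, ∀ p ∈ R, lf x⁻¹ (lf x p • p) • lf x p • p = p := fun x hx p hp => by
    rw [← mul_smul, ← r.mul F (inv_mem hx) hx hp, inv_mul_cancel,
      r.un (one_mem _) hp (a := 1) (by simp) (by simpa using hp), one_smul]
  exact sum_nbij' (fun p => lf x p • p) (fun p => lf x⁻¹ p • p) (r.mem x hx) (r.mem _ (inv_mem hx))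
    (k x hx) (fun p hp => by simpa using k _ (inv_mem hx) p hp) fun _ _ => rfl

theorem Sp.sm (L : Ls Γ N dv m Y od ι w1 wm) {u : U} (s : Sp N dv Y od R u) (hx : x ∈ Γ) :
    Sp N dv Y od R (x • u) := fun p hp h => by
  rw [F.eq x hx, ← smul_inv_smul x p, L.oe x hx]
  refine s _ (L.st _ (inv_mem hx) p hp) fun n hn e => h _
    (mul_mem (r.geo x hx _ e) (F.nz' hx hn)) ?_
  have := r.mem x hx _ e
  simpa [← mul_smul, mul_assoc] using this

end

theorem Sp.add {u v : U} (s : Sp N dv Y od R u) (t : Sp N dv Y od R v) :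
    Sp N dv Y od R (u + v) := fun p hp h => by rw [map_add, map_add, s p hp h, t p hp h, add_zero]

theorem Sp.sub {u v : U} (s : Sp N dv Y od R u) (t : Sp N dv Y od R v) :
    Sp N dv Y od R (u - v) := fun p hp h => by rw [map_sub, map_sub, s p hp h, t p hp h, sub_zero]

theorem Sp.ns {u : U} (s : Sp N dv Y od R u) (k : ℕ) : Sp N dv Y od R (k • u) := fun p hp h => by
  rw [map_nsmul, map_nsmul, s p hp h, smul_zero]

theorem Dt.bl (F : Fr Γ N dv S) (O : Om Γ dv m ω) (h : Dt Γ N dv m ω W l T) {n : G} (hn : n ∈ N)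
    (hx : x ∈ Γ) (hy : y ∈ Γ) : W (n * x) + (n * x) • W y - W (n * x * y) - ω (n * x) y =
      W x + x • W y - W (x * y) - ω x y := by
  have a1 := h.co n (F.le hn) x hx (.inl hn)
  have a2 := h.co n (F.le hn) _ (mul_mem hx hy) (.inl hn)
  have c := O.co n (F.le hn) x hx y hy
  rw [← h.bfx F O hx hy n hn, mul_assoc]
  simp only [smul_add, smul_sub, mul_smul]
  linear_combination (norm := abel) a1 - a2 + c

theorem Dt.br (F : Fr Γ N dv S) (O : Om Γ dv m ω) (h : Dt Γ N dv m ω W l T) {n : G} (hn : n ∈ N)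
    (hx : x ∈ Γ) (hy : y ∈ Γ) : W x + x • W (n * y) - W (x * (n * y)) - ω x (n * y) =
      W x + x • W y - W (x * y) - ω x y := by
  have m1 := F.nz y hy n hn
  rw [show n * y = y * (y⁻¹ * n * y) by group]
  generalize y⁻¹ * n * y = n' at m1
  have a1 := congrArg (x • ·) (h.co y hy n' (F.le m1) (.inr m1))
  have a2 := h.co _ (mul_mem hx hy) n' (F.le m1) (.inr m1)
  have c := O.co x hx y hy n' (F.le m1)
  simp only [smul_add, mul_smul, ← mul_assoc] at a1 a2 ⊢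
  linear_combination (norm := abel) a1 - a2 - c

theorem Ls.s1 (L : Ls Γ N dv m Y od ι w1 wm) (p : P) (u u' v : U) :
    w1 p (u - u') v = w1 p u v - w1 p u' v :=
  (AddMonoidHom.mk' (fun u => w1 p u v) fun a b => L.l1 p a b v).map_sub u u'

theorem Ls.n1 (L : Ls Γ N dv m Y od ι w1 wm) (p : P) (k : ℕ) (u v : U) :
    w1 p (k • u) v = k • w1 p u v :=
  (AddMonoidHom.mk' (fun u => w1 p u v) fun a b => L.l1 p a b v).map_nsmul k u

/-- **evaluation** -/
theorem ev (F : Fr Γ N dv S) (O : Om Γ dv m ω) (h : Dt Γ N dv m ω W l T) (nm : m • T = dv l)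
    (L : Ls Γ N dv m Y od ι w1 wm) (r : Rp Γ N R lf) (hR : ∀ p ∈ R, p ∈ Y) {o : G → G → K}
    (ho : ∀ x ∈ Γ, ∀ y ∈ Γ, ω x y = ι (o x y)) {Φ : U} (fΦ : Fx N Φ)
    (dΦ : ∀ x ∈ Γ, ∀ p ∈ Y, (m : ℤ) ∣ od p (dv (x • Φ - Φ)))
    (we : ∀ u, Fx N u → Sp N dv Y od R u → ∑ p ∈ R, w1 p u Φ = 0)
    (sW : ∀ x ∈ Γ, Sp N dv Y od R (W x)) (sl : Sp N dv Y od R l) {eW : E → G → K}
    (he : ∀ x ∈ Γ, ∀ u d, Fx N u → Fx N d → dv u = m • d → Sp N dv Y od R u →
      ∑ p ∈ R, wm p u (x • Φ - Φ) = eW (S d) x) (hK : ∀ k : K, ∃ v, m • v = k) :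
    ∃ (c : G → K) (k0 : K), (∀ x ∈ Γ, m • c x = 0) ∧ (∀ x ∈ Γ, ∀ n ∈ N, c (x * n) = c x) ∧
      (∀ v ∈ Γ, (∀ p ∈ R, v • p = p) → (∀ x, W (x * v) = W x) → v • l = l → v • Φ = Φ →
        v • k0 = k0 → ∀ x ∈ Γ, c (x * v) = c x) ∧
      ∀ x ∈ Γ, ∀ y ∈ Γ, eW (x • S (dv (W y) - (y • T - T))) x +
        ∑ p ∈ R, od (lf (x * y) p • p) (dv Φ) • o (lf x (lf y p • p)) (lf y p) =
          c x + x • c y - c (x * y) := by
  obtain ⟨k0, hk⟩ := hK (∑ p ∈ R, w1 p l Φ)
  have dl : ∀ a ∈ Γ, ∀ p, (m : ℤ) ∣ od p (dv (a • l)) := fun a ha p => by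
    rw [F.eq a ha, ← nm, sm_n, map_nsmul, nsmul_eq_mul]; exact Dvd.intro _ rfl
  have dh : ∀ y ∈ Γ, dv (m • W y - (y • l - l)) = m • (dv (W y) - (y • T - T)) := fun y hy => by
    simp only [map_sub, map_nsmul, F.eq y hy, ← nm, sm_n, smul_sub]
  have sh : ∀ y ∈ Γ, Sp N dv Y od R (m • W y - (y • l - l)) := fun y hy =>
    ((sW y hy).ns m).sub ((sl.sm F r L hy).sub sl)
  have mw : ∀ y ∈ Γ, ∀ p ∈ R, m • W (lf y p) = m • W y - (y • l - l) + (lf y p • l - l) :=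
    fun y hy p hp => by
      have := h.hl F O hy (r.geo y hy p hp)
      rw [inv_mul_cancel_right, h.hfx F O hy _ (r.geo y hy p hp)] at this
      rw [← this]; abel
  let c0 : G → K := fun x => ∑ p ∈ R, w1 (lf x p • p) (W (lf x p)) Φ
  let ρ : G → K := fun x => ∑ p ∈ R, wm (lf x p • p) (lf x p • l) (x • Φ - Φ)
  refine ⟨fun x => c0 x + ρ x - (x • k0 - k0), k0, fun x hx => ?_, fun x hx n hn => ?_,
    fun v hv h1 h2 h3 h4 h5 x hx => ?_, fun x hx y hy => ?_⟩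
  · have e : ∀ p ∈ R, m • w1 (lf x p • p) (W (lf x p)) Φ +
        m • wm (lf x p • p) (lf x p • l) (x • Φ - Φ) = w1 (lf x p • p) (m • W x - (x • l - l)) Φ +
          x • w1 p l Φ - w1 (lf x p • p) l Φ := fun p hp => by
      have q := hR _ (r.mem x hx p hp)
      have a := L.r1 (lf x p • p) (lf x p • l) Φ (x • Φ - Φ)
      rw [add_sub_cancel, ← r.fx F fΦ hx hp, L.e1 _ (r.lm F hx hp), r.fx F fΦ hx hp,
        r.fx F (L.tk _) hx hp] at a
      rw [← L.n1, mw x hx p hp, L.l1, L.s1 _ (lf x p • l), ← L.ns _ q _ _ (dl _ (r.lm F hx hp) _)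
        (dΦ x hx _ q), a]
      abel
    simp only [c0, ρ, smul_add, smul_sub, smul_sum, ← sum_add_distrib]
    rw [sum_congr rfl e, sum_sub_distrib, sum_add_distrib,
      r.sum F hx fun p => w1 p (m • W x - (x • l - l)) Φ, r.sum F hx fun p => w1 p l Φ,
      we _ (h.hfx F O hx) (sh x hx), ← sm_n, hk, smul_sum]
    abel
  · have e : ∀ p ∈ R, lf (x * n) p = lf x p := fun p hp => r.un (mul_mem hx (F.le hn)) hp (by
      simpa [mul_assoc] using mul_mem (r.geo x hx p hp) (F.nz' hx (inv_mem hn))) (r.mem x hx p hp)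
    simp only [c0, ρ, mul_smul, fΦ n hn, L.tk k0 n hn]
    congr 2 <;> exact sum_congr rfl fun p hp => by rw [e p hp]
  · have e : ∀ p ∈ R, lf (x * v) p = lf x p * v := fun p hp => r.un (mul_mem hx hv) hp (by
      simpa [mul_assoc] using r.geo x hx p hp) (by rw [mul_smul, h1 p hp]; exact r.mem x hx p hp)
    simp only [c0, ρ, mul_smul, h4, h5]
    congr 2 <;> exact sum_congr rfl fun p hp => by simp only [e p hp, mul_smul, h1 p hp, h2, h3]
  · have xy := mul_mem hx hy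
    have b0 := we _ (h.bfx F O hx hy) ((((sW x hx).add ((sW y hy).sm F r L hx)).sub (sW _ xy)).sub
      fun p _ _ => by rw [O.dz x hx y hy, map_zero])
    have b1 := he x hx _ _ (F.fx (h.hfx F O hy) hx) (F.fx (h.dfx F O hy) hx)
      (by rw [F.eq x hx, dh y hy, sm_n]) ((sh y hy).sm F r L hx)
    rw [F.se x hx _ (h.dfx F O hy)] at b1
    rw [← r.sum F xy] at b0 b1
    have e : ∀ p ∈ R, wm (lf (x * y) p • p) (x • (m • W y - (y • l - l))) (x • Φ - Φ) +
        od (lf (x * y) p • p) (dv Φ) • o (lf x (lf y p • p)) (lf y p) +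
        w1 (lf (x * y) p • p) (W x + x • W y - W (x * y) - ω x y) Φ =
        (w1 (lf x (lf y p • p) • lf y p • p) (W (lf x (lf y p • p))) Φ +
          wm (lf x (lf y p • p) • lf y p • p) (lf x (lf y p • p) • l) (x • Φ - Φ)) +
        x • (w1 (lf y p • p) (W (lf y p)) Φ + wm (lf y p • p) (lf y p • l) (y • Φ - Φ)) -
        (w1 (lf (x * y) p • p) (W (lf (x * y) p)) Φ +
          wm (lf (x * y) p • p) (lf (x * y) p • l) ((x * y) • Φ - Φ)) := fun p hp => by
      have q := r.mem y hy p hp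
      have ha := r.lm F hx q
      have hb := r.lm F hy hp
      have na := r.geo x hx _ q
      have q' := hR _ (r.mem x hx _ q)
      have B := (h.bl F O na hx hb).trans (by
        simpa only [inv_mul_cancel_right] using h.br F O (r.geo y hy p hp) hx hy)
      have m1 := congrArg (lf x (lf y p • p) • ·) (mw y hy p hp)
      have f1 := r.fx F fΦ hx q
      have f2 := fun k => r.fx F (L.tk k) hx q
      have f3 := r.fx F (h.hfx F O hy) hx q
      have d1 := dΦ x hx _ q'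
      have d2 := dΦ y hy _ (hR _ q)
      rw [r.mul F hx hy hp, mul_smul]
      rw [inv_mul_cancel_right] at B
      generalize lf x (lf y p • p) = a at *
      generalize lf y p = b at *
      have d3 : (m : ℤ) ∣ od (a • b • p) (dv (a • (y • Φ - Φ))) := by
        rwa [F.eq a ha, L.oe a ha]
      have d4 : (m : ℤ) ∣ od (a • b • p) (dv (x • (m • W y - (y • l - l)))) := by
        rw [F.eq x hx, dh y hy, sm_n, map_nsmul, nsmul_eq_mul]; exact Dvd.intro _ rfl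
      have a1 := L.r1 (a • b • p) (a • W b) Φ (x • Φ - Φ)
      rw [add_sub_cancel, ← f1, L.e1 a ha, f1, f2, L.lv _ q' _ _ d1] at a1
      have a2 := L.lm _ q' (m • a • W b) (a • l) (x • Φ - Φ)
        (by rw [map_nsmul, map_nsmul, nsmul_eq_mul]; exact Dvd.intro _ rfl) (dl a ha _)
      have a3 := L.lm _ q' (x • (m • W y - (y • l - l))) ((a * b) • l) (x • Φ - Φ) d4
        (dl _ (mul_mem ha hb) _)
      have a4 := L.rm _ q' ((a * b) • l) _ _ d1 d3
      have a5 := L.em a ha _ (hR _ q) (b • l) _ (dl b hb _) d2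
      rw [show x • (m • W y - (y • l - l)) + (a * b) • l = m • a • W b + a • l by
        simp only [smul_add, sm_n, f3] at m1
        rw [m1, smul_sub a, mul_smul]; abel] at a3
      rw [show x • Φ - Φ + a • (y • Φ - Φ) = (x * y) • Φ - Φ by
        rw [smul_sub, f1, mul_smul, ← F.fx (F.fx fΦ hy) hx _ na, ← mul_smul _ x,
          inv_mul_cancel_right]
        abel] at a4
      rw [f2, ← mul_smul a b l] at a5
      rw [← B, L.s1, L.s1, L.l1, ho a ha b hb, L.c1 _ q', smul_add]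
      linear_combination (norm := abel) a2 - a3 - a1 + a4 + a5
    have e' := sum_congr rfl e
    rw [sum_add_distrib, sum_add_distrib, b0, b1, add_zero] at e'
    rw [e']
    simp only [c0, ρ, sum_sub_distrib, sum_add_distrib, smul_add, smul_sub, smul_sum, mul_smul]
    rw [r.sum F hy fun q => w1 (lf x q • q) (W (lf x q)) Φ,
      r.sum F hy fun q => wm (lf x q • q) (lf x q • l) (x • Φ - Φ)]
    abel

end Vale.Agent.P014T.Kc
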