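import Vale.Agent.P014T.Kc.Tr

/-!
# P014T, block KC: the class of a symbol
-/

set_option autoImplicit false
set_option linter.all false

namespace Vale.Agent.P014T.Kc

variable {G U D E : Type} [Group G] [AddCommGroup U] [AddCommGroup D] [AddCommGroup E]
  [DistribMulAction G U] [DistribMulAction G D] [DistribMulAction G E]

/-- a root of unity -/
structure Ze (Γ : Subgroup G) (dv : U →+ D) (m : ℕ) (ζ : U) : Prop where
  fx : Fx Γ ζ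
  mz : m • ζ = 0
  dz : dv ζ = 0

/-- `a` is the Kummer character of `α` -/
def Rt (Γ : Subgroup G) (ζ α : U) (a : G → ℤ) : Prop := ∀ x ∈ Γ, x • α - α = a x • ζ

/-- the cup product -/
def cp (ζ : U) (a b : G → ℤ) (x y : G) : U := (a x * b y) • ζ

/-- `z` is a class attached to the symbol of `m • α` and `m • β` -/
def Sym (Γ N : Subgroup G) (dv : U →+ D) (S : D →+ E) (m : ℕ) (ζ α β : U) (z : G → E) : Prop :=
  ∃ a b, Rt Γ ζ α a ∧ Rt Γ ζ β b ∧ Kc Γ N dv S m (cp ζ a b) z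

variable {Γ N Γ' N' : Subgroup G} {dv : U →+ D} {S S' : D →+ E} {m : ℕ} {ζ α β α' β' : U}
  {a b a' b' : G → ℤ} {z z' : G → E}

theorem cg {ζ : U} {s t s' t' : ℤ} (h : s • ζ = t • ζ) (h' : s' • ζ = t' • ζ) :
    (s * s') • ζ = (t * t') • ζ := by
  rw [mul_smul, h', smul_comm, h, smul_comm, mul_smul]

theorem Ze.mono (Z : Ze Γ dv m ζ) (le : Γ' ≤ Γ) : Ze Γ' dv m ζ :=
  ⟨fun x hx => Z.fx x (le hx), Z.mz, Z.dz⟩

theorem Ze.sm (Z : Ze Γ dv m ζ) {x : G} (hx : x ∈ Γ) (c : ℤ) : x • c • ζ = c • ζ := by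
  rw [sm_z, Z.fx x hx]

theorem Ze.mz' (Z : Ze Γ dv m ζ) (c : ℤ) : m • c • ζ = 0 := by rw [smul_comm, Z.mz, smul_zero]

theorem Ze.dz' (Z : Ze Γ dv m ζ) (c : ℤ) : dv (c • ζ) = 0 := by rw [map_zsmul, Z.dz, smul_zero]

theorem Rt.mono (h : Rt Γ ζ α a) (le : Γ' ≤ Γ) : Rt Γ' ζ α a := fun x hx => h x (le hx)

theorem Rt.un (h : Rt Γ ζ α a) (h' : Rt Γ ζ α a') {x : G} (hx : x ∈ Γ) : a x • ζ = a' x • ζ :=
  (h x hx).symm.trans (h' x hx)

theorem Rt.mul (Z : Ze Γ dv m ζ) (h : Rt Γ ζ α a) {x y : G} (hx : x ∈ Γ) (hy : y ∈ Γ) :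
    a (x * y) • ζ = (a x + a y) • ζ := by
  rw [← h _ (mul_mem hx hy), add_smul, ← Z.sm hx (a y), ← h x hx, ← h y hy, smul_sub, mul_smul]
  abel

theorem Rt.add (h : Rt Γ ζ α a) (h' : Rt Γ ζ α' a') : Rt Γ ζ (α + α') (a + a') := fun x hx => by
  rw [Pi.add_apply, add_smul, ← h x hx, ← h' x hx, smul_add]; abel

theorem Rt.zsmul (h : Rt Γ ζ α a) (c : ℤ) : Rt Γ ζ (c • α) (c • a) := fun x hx => by
  rw [Pi.smul_apply, smul_eq_mul, mul_smul, ← h x hx, sm_z, smul_sub]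

/-- existence of the character -/
theorem Rt.ex (hζ : ∀ u : U, m • u = 0 → ∃ c : ℤ, u = c • ζ) (h : Fx Γ (m • α)) :
    ∃ a, Rt Γ ζ α a := by
  have : ∀ x, ∃ c : ℤ, x ∈ Γ → x • α - α = c • ζ := fun x => by
    by_cases hx : x ∈ Γ
    · exact (hζ _ (by rw [smul_sub, ← sm_n, h x hx, sub_self])).imp fun c e _ => e
    · exact ⟨0, fun h => (hx h).elim⟩
  choose a ha using this
  exact ⟨a, ha⟩

theorem cp_om (Z : Ze Γ dv m ζ) (ha : Rt Γ ζ α a) (hb : Rt Γ ζ β b) : Om Γ dv m (cp ζ a b) :=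
  ⟨fun x hx y hy w hw => by
    simp only [cp]
    rw [Z.sm hx, cg rfl (hb.mul Z hy hw), cg (ha.mul Z hx hy) rfl, ← add_smul, ← add_smul]
    congr 1; ring, fun _ _ _ _ => Z.dz' _, fun _ _ _ _ => Z.mz' _⟩

theorem Sym.kc (s : Sym Γ N dv S m ζ α β z) (le : N ≤ Γ) (ha : Rt Γ ζ α a) (hb : Rt Γ ζ β b) :
    Kc Γ N dv S m (cp ζ a b) z := by
  obtain ⟨a', b', h1, h2, k⟩ := s
  exact k.congr le (fun x hx y hy => cg (ha.un h1 hx) (hb.un h2 hy)) fun _ _ => rfl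

/-- existence -/
theorem Sym.ex (F : Fr Γ N dv S) (Z : Ze Γ dv m ζ) (hE : ∀ e : E, ∃ q, m • q = e)
    (ha : Rt Γ ζ α a) (hb : Rt Γ ζ β b) (η : G → U) (hη : ∀ g ∈ N, ∀ h ∈ N, ∀ n : ℤ,
      g • α - α = n • ζ → η (g * h) + n • (h • β - β) = η g + g • η h) :
    ∃ z, Sym Γ N dv S m ζ α β z := by
  obtain ⟨z, k⟩ := Kc.ex F (cp_om Z ha hb) hE η fun g hg h hh => by
    rw [← hη g hg h hh _ (ha g (F.le hg)), hb h (F.le hh), cp, mul_smul]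
  exact ⟨z, a, b, ha, hb, k⟩

section

variable (F : Fr Γ N dv S) (Z : Ze Γ dv m ζ) (s : Sym Γ N dv S m ζ α β z)
include F Z s

theorem Sym.coc {x y : G} (hx : x ∈ Γ) (hy : y ∈ Γ) : z (x * y) = z x + x • z y :=
  let ⟨_, _, ha, hb, k⟩ := s
  k.coc F (cp_om Z ha hb) hx hy

theorem Sym.tor {x : G} (hx : x ∈ Γ) : m • z x = 0 :=
  let ⟨_, _, ha, hb, k⟩ := s
  k.tor F (cp_om Z ha hb) hx

theorem Sym.geo {x n : G} (hx : x ∈ Γ) (hn : n ∈ N) : z (x * n) = z x :=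
  let ⟨_, _, ha, hb, k⟩ := s
  k.geo F (cp_om Z ha hb) hx hn

omit Z in
theorem Sym.uniq (s' : Sym Γ N dv S m ζ α β z') :
    ∃ q : E, m • q = 0 ∧ ∀ x ∈ Γ, z x = z' x + (x • q - q) :=
  let ⟨_, _, ha, hb, k⟩ := s
  k.uniq F (s'.kc F.le ha hb)

theorem Sym.skew : Sym Γ N dv S m ζ β α (-z) := by
  obtain ⟨a, b, ha, hb, k⟩ := s
  refine ⟨b, a, hb, ha, k.neg.cob F.le (fun x => (-(a x * b x)) • ζ) (fun _ _ => Z.dz' _)
    (fun _ _ => Z.mz' _) fun x hx y hy => ?_⟩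
  simp only [cp, Pi.neg_apply]
  rw [Z.sm hx, neg_smul (a (x * y) * _), cg (ha.mul Z hx hy) (hb.mul Z hx hy), ← neg_smul,
    ← neg_smul, ← add_smul, ← sub_smul, ← add_smul]
  congr 1; ring

end

theorem Sym.cob (s : Sym Γ N dv S m ζ α β z) (q : E) (hq : m • q = 0)
    (e : ∀ x ∈ Γ, z' x = z x + (x • q - q)) : Sym Γ N dv S m ζ α β z' :=
  let ⟨a, b, ha, hb, k⟩ := s
  ⟨a, b, ha, hb, k.cob' q hq e⟩

theorem Sym.congr (s : Sym Γ N dv S m ζ α β z) (h1 : Fx Γ (α' - α)) (h2 : Fx Γ (β' - β))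
    (e : ∀ x ∈ Γ, z' x = z x) : Sym Γ N dv S m ζ α' β' z' := by
  obtain ⟨a, b, ha, hb, k⟩ := s.cob 0 (smul_zero _) (z' := z') (by simpa using e)
  refine ⟨a, b, fun x hx => ?_, fun x hx => ?_, k⟩
  · linear_combination (norm := (simp only [smul_sub]; abel)) ha x hx + h1 x hx
  · linear_combination (norm := (simp only [smul_sub]; abel)) hb x hx + h2 x hx

/-- the class does not depend on the roots -/
theorem Sym.root (s : Sym Γ N dv S m ζ α β z) (h : ∀ u : U, m • u = 0 → Fx Γ u)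
    (h1 : m • α' = m • α) (h2 : m • β' = m • β) : Sym Γ N dv S m ζ α' β' z :=
  s.congr (h _ (by rw [smul_sub, h1, sub_self])) (h _ (by rw [smul_sub, h2, sub_self]))
    fun _ _ => rfl

theorem Sym.add_l (le : N ≤ Γ) (s : Sym Γ N dv S m ζ α β z) (s' : Sym Γ N dv S m ζ α' β z') :
    Sym Γ N dv S m ζ (α + α') β (z + z') := by
  obtain ⟨a, b, ha, hb, k⟩ := s
  obtain ⟨a', b', ha', hb', k'⟩ := id s'
  exact ⟨_, b, ha.add ha', hb, (k.add (s'.kc le ha' hb)).congr le (fun x _ y _ => by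
    simp only [cp, Pi.add_apply, add_mul, add_smul]) fun _ _ => rfl⟩

theorem Sym.add_r (le : N ≤ Γ) (s : Sym Γ N dv S m ζ α β z) (s' : Sym Γ N dv S m ζ α β' z') :
    Sym Γ N dv S m ζ α (β + β') (z + z') := by
  obtain ⟨a, b, ha, hb, k⟩ := s
  obtain ⟨a', b', ha', hb', k'⟩ := id s'
  exact ⟨a, _, ha, hb.add hb', (k.add (s'.kc le ha hb')).congr le (fun x _ y _ => by
    simp only [cp, Pi.add_apply, mul_add, add_smul]) fun _ _ => rfl⟩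

theorem Sym.zsmul_l (le : N ≤ Γ) (s : Sym Γ N dv S m ζ α β z) (c : ℤ) :
    Sym Γ N dv S m ζ (c • α) β (c • z) := by
  obtain ⟨a, b, ha, hb, k⟩ := s
  exact ⟨_, b, ha.zsmul c, hb, (k.zsmul c).congr le (fun x _ y _ => by
    simp only [cp, Pi.smul_apply, smul_eq_mul, mul_smul]) fun _ _ => rfl⟩

theorem Sym.zsmul_r (le : N ≤ Γ) (s : Sym Γ N dv S m ζ α β z) (c : ℤ) :
    Sym Γ N dv S m ζ α (c • β) (c • z) := by
  obtain ⟨a, b, ha, hb, k⟩ := s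
  exact ⟨a, _, ha, hb.zsmul c, (k.zsmul c).congr le (fun x _ y _ => by
    simp only [cp, Pi.smul_apply, smul_eq_mul, ← mul_smul, mul_left_comm]) fun _ _ => rfl⟩

theorem Sym.sub_l (le : N ≤ Γ) (s : Sym Γ N dv S m ζ α β z) (s' : Sym Γ N dv S m ζ α' β z') :
    Sym Γ N dv S m ζ (α - α') β (z - z') := by
  simpa only [sub_eq_add_neg, neg_smul, one_smul] using s.add_l le (s'.zsmul_l le (-1))

theorem Sym.sub_r (le : N ≤ Γ) (s : Sym Γ N dv S m ζ α β z) (s' : Sym Γ N dv S m ζ α β' z') :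
    Sym Γ N dv S m ζ α (β - β') (z - z') := by
  simpa only [sub_eq_add_neg, neg_smul, one_smul] using s.add_r le (s'.zsmul_r le (-1))

theorem kc_zero : Kc Γ N dv S m 0 0 :=
  ⟨0, 0, 0, 0, ⟨by simp, by simp, by simp⟩, by simp, by simp⟩

theorem Sym.zero_r (le : N ≤ Γ) (ha : Rt Γ ζ α a) (h : Fx Γ β) : Sym Γ N dv S m ζ α β 0 :=
  ⟨a, 0, ha, fun x hx => by simp [h x hx], kc_zero.congr le (by simp [cp]) fun _ _ => rfl⟩

theorem Sym.zero_l (le : N ≤ Γ) (hb : Rt Γ ζ β b) (h : Fx Γ α) : Sym Γ N dv S m ζ α β 0 :=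
  ⟨0, b, fun x hx => by simp [h x hx], hb, kc_zero.congr le (by simp [cp]) fun _ _ => rfl⟩

theorem Sym.sum_r (le : N ≤ Γ) (ha : Rt Γ ζ α a) {ι : Type} (t : Finset ι) {β : ι → U}
    {z : ι → G → E} (s : ∀ i ∈ t, Sym Γ N dv S m ζ α (β i) (z i)) :
    Sym Γ N dv S m ζ α (∑ i ∈ t, β i) (∑ i ∈ t, z i) := by
  classical
  induction t using Finset.induction_on with
  | empty => exact Sym.zero_r le ha fun _ _ => smul_zero _
  | insert i t hi ih =>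
    rw [Finset.sum_insert hi, Finset.sum_insert hi]
    exact (s i (Finset.mem_insert_self _ _)).add_r le (ih fun j hj => s j (Finset.mem_insert_of_mem hj))

theorem Sym.sum_l (le : N ≤ Γ) (hb : Rt Γ ζ β b) {ι : Type} (t : Finset ι) {α : ι → U}
    {z : ι → G → E} (s : ∀ i ∈ t, Sym Γ N dv S m ζ (α i) β (z i)) :
    Sym Γ N dv S m ζ (∑ i ∈ t, α i) β (∑ i ∈ t, z i) := by
  classical
  induction t using Finset.induction_on with
  | empty => exact Sym.zero_l le hb fun _ _ => smul_zero _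
  | insert i t hi ih =>
    rw [Finset.sum_insert hi, Finset.sum_insert hi]
    exact (s i (Finset.mem_insert_self _ _)).add_l le (ih fun j hj => s j (Finset.mem_insert_of_mem hj))

/-- change of the root of unity -/
theorem Sym.zeta (le : N ≤ Γ) {c : ℤ} (s : Sym Γ N dv S m (c • ζ) α β z) :
    Sym Γ N dv S m ζ α β (c • z) := by
  obtain ⟨a, b, ha, hb, k⟩ := s
  refine ⟨fun x => a x * c, fun x => b x * c, fun x hx => by rw [ha x hx, mul_smul],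
    fun x hx => by rw [hb x hx, mul_smul], (k.zsmul c).congr le (fun x _ y _ => ?_) fun _ _ => rfl⟩
  simp only [cp, Pi.smul_apply, ← mul_smul]
  congr 1; ring

/-- change of the level -/
theorem Kc.lev {ω : G → G → U} {k m' : ℕ} (h : Kc Γ N dv S (m' * k) ω z) :
    Kc Γ N dv S m' (k • ω) (k • z) := by
  obtain ⟨W, l, T, Q, h, q, f⟩ := h
  refine ⟨k • W, l, k • T, k • Q, ⟨fun x hx y hy o => ?_, fun g hg => ?_, fun g hg => ?_⟩,
    ?_, fun x hx => ?_⟩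
  · simp only [Pi.smul_apply, sm_n, ← smul_add, h.co x hx y hy o]
  · rw [Pi.smul_apply, map_nsmul, h.dw g hg, sm_n, smul_sub]
  · rw [Pi.smul_apply, ← mul_smul, h.mw g hg]
  · rw [← mul_smul, ← mul_smul, q]
  · simp only [Pi.smul_apply, f x hx, map_nsmul, map_sub, smul_add, smul_sub, sm_n]

theorem Sym.lev (le : N ≤ Γ) {k m' : ℕ} (s : Sym Γ N dv S (m' * k) ζ α β z) :
    Sym Γ N dv S m' (k • ζ) (k • α) (k • β) (k • z) := by
  obtain ⟨a, b, ha, hb, h⟩ := s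
  exact ⟨a, b, fun x hx => by rw [sm_n, ← smul_sub, ha x hx, smul_comm],
    fun x hx => by rw [sm_n, ← smul_sub, hb x hx, smul_comm],
    h.lev.congr le (fun x _ y _ => by simp only [cp, Pi.smul_apply]; rw [smul_comm]) fun _ _ => rfl⟩

theorem Sym.add_s {S₁ S₂ : D →+ E} {z₁ z₂ : G → E} (F₁ : Fr Γ N dv S₁) (F₂ : Fr Γ N dv S₂)
    (Z : Ze Γ dv m ζ) (s₁ : Sym Γ N dv S₁ m ζ α β z₁) (s₂ : Sym Γ N dv S₂ m ζ α β z₂)
    (e : ∀ d, Fx N d → S d = S₁ d + S₂ d) : Sym Γ N dv S m ζ α β (z₁ + z₂) :=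
  let ⟨a, b, ha, hb, k⟩ := s₁
  ⟨a, b, ha, hb, k.add_s F₁ F₂ (cp_om Z ha hb) (s₂.kc F₁.le ha hb) e⟩

/-- functoriality -/
theorem Sym.map {G₁ U₁ D₁ E₁ : Type} [Group G₁] [AddCommGroup U₁] [AddCommGroup D₁]
    [AddCommGroup E₁] [DistribMulAction G₁ U₁] [DistribMulAction G₁ D₁] [DistribMulAction G₁ E₁]
    {Γ₁ N₁ : Subgroup G₁} {dv₁ : U₁ →+ D₁} {S₁ : D₁ →+ E₁} {f : G₁ → G} {φU : U →+ U₁}
    {φD : D →+ D₁} {φE : E →+ E₁} (F : Fr Γ N dv S) (Z : Ze Γ dv m ζ)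
    (M : Mp Γ N dv S Γ₁ N₁ dv₁ S₁ f φU φD φE) (s : Sym Γ N dv S m ζ α β z) :
    Sym Γ₁ N₁ dv₁ S₁ m (φU ζ) (φU α) (φU β) fun x => φE (z (f x)) := by
  obtain ⟨a, b, ha, hb, k⟩ := s
  refine ⟨fun x => a (f x), fun x => b (f x), fun x hx => ?_, fun x hx => ?_,
    (k.map F (cp_om Z ha hb) M).congr M.le (fun x _ y _ => by simp only [cp, map_zsmul])
      fun _ _ => rfl⟩
  · rw [← M.eu x hx, ← map_sub, ha _ (M.mem x hx), map_zsmul]
  · rw [← M.eu x hx, ← map_sub, hb _ (M.mem x hx), map_zsmul]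

/-- conjugation by an element of the ambient group as a map of frames -/
theorem Mp.conj {Γ₁ N₁ : Subgroup G} {S₁ : D →+ E} (g : G) (φE : E →+ E) (le : N₁ ≤ Γ₁)
    (h1 : ∀ x ∈ Γ₁, g⁻¹ * x * g ∈ Γ) (h2 : ∀ x ∈ N₁, g⁻¹ * x * g ∈ N)
    (h3 : ∀ x ∈ Γ₁, ∀ e, φE ((g⁻¹ * x * g) • e) = x • φE e) (h4 : ∀ u, dv (g • u) = g • dv u)
    (h5 : ∀ d, Fx N d → S₁ (g • d) = φE (S d)) :
    Mp Γ N dv S Γ₁ N₁ dv S₁ (fun x => g⁻¹ * x * g) (DistribMulAction.toAddMonoidHom U g)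
      (DistribMulAction.toAddMonoidHom D g) φE :=
  ⟨fun x _ y _ => by group, h1, h2, le, fun x _ u => by simp [← mul_smul, ← mul_assoc],
    fun x _ u => by simp [← mul_smul, ← mul_assoc], h3, h4, h5⟩

/-- restriction to smaller groups as a map of frames -/
theorem Mp.res {Γ₁ N₁ : Subgroup G} {S₁ : D →+ E} (φE : E →+ E) (le : N₁ ≤ Γ₁) (h1 : Γ₁ ≤ Γ)
    (h2 : N₁ ≤ N) (h3 : ∀ x ∈ Γ₁, ∀ e, φE (x • e) = x • φE e)
    (h5 : ∀ d, Fx N d → S₁ d = φE (S d)) :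
    Mp Γ N dv S Γ₁ N₁ dv S₁ id (.id U) (.id D) φE :=
  ⟨fun _ _ _ _ => rfl, h1, h2, le, fun _ _ _ => rfl, fun _ _ _ => rfl, h3, fun _ => rfl, h5⟩

/-! ### norms -/

variable {X : Type} [Fintype X] {r : X → G} {p : G → X → X}

theorem Rt.tr (t : Tr Γ Γ' r p) (Z : Ze Γ dv m ζ) (hb : Rt Γ' ζ β b) :
    Rt Γ ζ (∑ i, r i • β) fun x => ∑ i, b (ta r p x i) := fun x hx => by
  rw [← t.d0 hx, Finset.sum_smul]
  exact Finset.sum_congr rfl fun i _ => by rw [hb _ (t.ta_mem hx i), Z.sm (t.mem _)]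

/-- the projection formula for cochains -/
theorem Kc.prj (t : Tr Γ Γ' r p) (le : N ≤ Γ) (Z : Ze Γ dv m ζ) (ha : Rt Γ ζ α a)
    (hb : Rt Γ' ζ β b) (k : Kc Γ N dv S m (co2 r p (cp ζ a b)) z) :
    Kc Γ N dv S m (cp ζ a fun x => ∑ i, b (ta r p x i)) z := by
  refine k.cob le (fun y => (-∑ i, a (r (p y i)) * b (ta r p y i)) • ζ) (fun _ _ => Z.dz' _)
    (fun _ _ => Z.mz' _) fun x hx y hy => ?_
  have e1 : ∀ j, a (ta r p x j) • ζ = (a x + a (r j) - a (r (p x j))) • ζ := fun j => by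
    have := ha.mul Z (t.mem (p x j)) (t.le (t.ta_mem hx j))
    rw [ta_eq, ha.mul Z hx (t.mem j), add_smul (a (r _))] at this
    rw [sub_smul, this, add_sub_cancel_left]
  rw [Z.sm hx, ← t.sum hy fun j => a (r (p x j)) * b (ta r p x j)]
  simp only [cp, co2, Z.sm (t.mem _), neg_smul, Finset.sum_smul, Finset.mul_sum, t.mul hx hy,
    t.ta_mul hx hy, ← Finset.sum_neg_distrib, ← Finset.sum_add_distrib, ← Finset.sum_sub_distrib]
  refine Finset.sum_congr rfl fun i _ => ?_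
  rw [cg (e1 _) rfl, cg rfl (hb.mul (Z.mono t.le) (t.ta_mem hx _) (t.ta_mem hy _))]
  simp only [← neg_smul, ← add_smul, ← sub_smul]
  congr 1; ring

/-- norms for an extension of the constants -/
theorem Sym.nrmC (F : Fr Γ N dv S) (Z : Ze Γ dv m ζ) (t : Tr Γ Γ' r p) (le : N ≤ Γ')
    (ha : Rt Γ ζ α a) (s : Sym Γ' N dv S m ζ α β z) :
    Sym Γ N dv S m ζ α (∑ i, r i • β) (co1 r p z) := by
  obtain ⟨a', b, ha', hb, -⟩ := id s
  exact ⟨a, _, ha, hb.tr t Z, ((s.kc le (ha.mono t.le) hb).trC F t le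
    (cp_om (Z.mono t.le) (ha.mono t.le) hb)).prj t F.le Z ha hb⟩

/-- norms for a geometric covering -/
theorem Sym.nrmG (F : Fr Γ N dv S) (F' : Fr Γ' N' dv S') (Z : Ze Γ dv m ζ) (t : Tr Γ Γ' r p)
    (hr : ∀ i, r i ∈ N) (hN : ∀ n ∈ N, n ∈ Γ' → n ∈ N')
    (hS : ∀ d, Fx N' d → S (∑ i, r i • d) = S' d) (ha : Rt Γ ζ α a)
    (s : Sym Γ' N' dv S' m ζ α β z') :
    ∃ z, Sym Γ N dv S m ζ α (∑ i, r i • β) z ∧ ∀ x ∈ Γ', z x = z' x := by
  obtain ⟨a', b, ha', hb, -⟩ := id s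
  obtain ⟨z, k, e⟩ := (s.kc F'.le (ha.mono t.le) hb).trG F F' t hr hN hS
    (cp_om (Z.mono t.le) (ha.mono t.le) hb)
  exact ⟨z, ⟨a, _, ha, hb.tr t Z, k.prj t F.le Z ha hb⟩, e⟩

theorem co1_neg (x : G) : co1 r p (-z) x = -co1 r p z x := by simp [co1]

theorem Sym.nrmC' (F : Fr Γ N dv S) (Z : Ze Γ dv m ζ) (t : Tr Γ Γ' r p) (le : N ≤ Γ')
    (hb : Rt Γ ζ β b) (s : Sym Γ' N dv S m ζ α β z) :
    Sym Γ N dv S m ζ (∑ i, r i • α) β (co1 r p z) :=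
  (((s.skew (F.mono t.le le) (Z.mono t.le)).nrmC F Z t le hb).skew F Z).cob 0 (smul_zero _)
    fun x _ => by simp [co1_neg]

theorem Sym.nrmG' (F : Fr Γ N dv S) (F' : Fr Γ' N' dv S') (Z : Ze Γ dv m ζ) (t : Tr Γ Γ' r p)
    (hr : ∀ i, r i ∈ N) (hN : ∀ n ∈ N, n ∈ Γ' → n ∈ N')
    (hS : ∀ d, Fx N' d → S (∑ i, r i • d) = S' d) (hb : Rt Γ ζ β b)
    (s : Sym Γ' N' dv S' m ζ α β z') :
    ∃ z, Sym Γ N dv S m ζ (∑ i, r i • α) β z ∧ ∀ x ∈ Γ', z x = z' x := by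
  obtain ⟨z, k, e⟩ := (s.skew F' (Z.mono t.le)).nrmG F F' Z t hr hN hS hb
  exact ⟨-z, k.skew F Z, fun x hx => by simp [e x hx]⟩

end Vale.Agent.P014T.Kc
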