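import Vale.Agent.P014T.Kc.Lc

/-!
# P014T, block KC: transfer with weights
-/

set_option autoImplicit false
set_option linter.all false

namespace Vale.Agent.P014T.Kc

variable {G U D E : Type} [Group G] [AddCommGroup U] [AddCommGroup D] [AddCommGroup E]
  [DistribMulAction G U] [DistribMulAction G D] [DistribMulAction G E]
  {Γ N Γ' Δ : Subgroup G} {dv : U →+ D} {S : D →+ E} {m : ℕ} {ω : G → G → U} {W : G → U}
  {l : U} {T : D} {z : G → E} {X : Type} [Fintype X] {r : X → G} {p : G → X → X} {w : X → ℤ}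

/-- weighted corestriction of one cochains -/
def cw1 {A : Type} [AddCommGroup A] [DistribMulAction G A] (w : X → ℤ) (r : X → G) (p : G → X → X)
    (c : G → A) (x : G) : A := ∑ i, w i • r (p x i) • c (ta r p x i)

/-- weighted corestriction of two cochains -/
def cw2 (w : X → ℤ) (r : X → G) (p : G → X → X) (ω : G → G → U) (x y : G) : U :=
  ∑ i, w i • r (p x (p y i)) • ω (ta r p x (p y i)) (ta r p y i)

section

variable (t : Tr Γ Γ' r p) (le : Δ ≤ Γ) (hw : ∀ x ∈ Δ, ∀ i, w (p x i) = w i)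
include t le hw

theorem Tr.sw {x : G} (hx : x ∈ Δ) {A : Type} [AddCommGroup A] (f : X → A) :
    ∑ i, w i • f (p x i) = ∑ i, w i • f i := by
  rw [← t.sum (le hx) fun i => w i • f i]
  simp only [hw x hx]

theorem Tr.w0 {x : G} (hx : x ∈ Δ) {A : Type} [AddCommGroup A] [DistribMulAction G A] (a : A) :
    ∑ i, w i • r (p x i) • (ta r p x i • a - a) =
      x • ∑ i, w i • r i • a - ∑ i, w i • r i • a := by
  simp only [smul_sub, Finset.sum_sub_distrib, ← mul_smul, ta_eq, Finset.smul_sum, sm_z]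
  rw [t.sw le hw hx fun i => r i • a]

theorem Tr.w1 {x y : G} (hx : x ∈ Δ) (hy : y ∈ Δ) {A : Type} [AddCommGroup A]
    [DistribMulAction G A] (c : G → A) :
    cw1 w r p c x + x • cw1 w r p c y - cw1 w r p c (x * y) = ∑ i, w i • r (p x (p y i)) •
      (c (ta r p x (p y i)) + ta r p x (p y i) • c (ta r p y i) -
        c (ta r p x (p y i) * ta r p y i)) := by
  simp only [cw1, smul_add, smul_sub, Finset.sum_sub_distrib, Finset.sum_add_distrib, ← mul_smul,
    ta_eq, Finset.smul_sum, t.ta_mul (le hx) (le hy), t.mul (le hx) (le hy), sm_z]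
  rw [t.sw le hw hy fun i => r (p x i) • c (ta r p x i)]

theorem Om.trW (eq : ∀ x ∈ Γ, ∀ u, dv (x • u) = x • dv u) (O : Om Γ' dv m ω) :
    Om Δ dv m (cw2 w r p ω) := by
  refine ⟨fun x hx y hy v hv => ?_, fun x hx y hy => ?_, fun x hx y hy => ?_⟩
  · simp only [cw2, Finset.smul_sum, t.ta_mul (le hx) (le hy), t.ta_mul (le hy) (le hv),
      t.mul (le hx) (le hy), t.mul (le hy) (le hv), sm_z]
    rw [← t.sw le hw hv fun i => r (p x (p y i)) • ω (ta r p x (p y i)) (ta r p y i),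
      ← Finset.sum_add_distrib, ← Finset.sum_add_distrib]
    refine Finset.sum_congr rfl fun i _ => ?_
    rw [← smul_add, ← smul_add, ← mul_smul, ← ta_eq, mul_smul, ← smul_add, ← smul_add,
      O.co _ (t.ta_mem (le hx) _) _ (t.ta_mem (le hy) _) _ (t.ta_mem (le hv) _)]
  · simp only [cw2, map_sum, map_zsmul, eq _ (t.mem _),
      O.dz _ (t.ta_mem (le hx) _) _ (t.ta_mem (le hy) _), smul_zero, Finset.sum_const_zero]
  · simp only [cw2, Finset.smul_sum, smul_comm m, ← sm_n,
      O.mz _ (t.ta_mem (le hx) _) _ (t.ta_mem (le hy) _), smul_zero, Finset.sum_const_zero]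

/-- weighted transfer for an extension of the constants -/
theorem Kc.trW (F : Fr Γ N dv S) (l1 : N ≤ Γ') (l2 : N ≤ Δ) (O : Om Γ' dv m ω)
    (k : Kc Γ' N dv S m ω z) : Kc Δ N dv S m (cw2 w r p ω) (cw1 w r p z) := by
  obtain ⟨W, l, T, Q, h, q, f⟩ := k
  have F' := F.mono t.le l1
  have hN : ∀ n ∈ N, ∀ i, ta r p n i ∈ N := fun n hn i => by
    have := F.nz _ (t.mem i) n hn
    rwa [ta, t.fix (F.le hn) (l1 this)]
  refine ⟨cw1 w r p W, ∑ i, w i • r i • l, ∑ i, w i • r i • T, ∑ i, w i • r i • Q,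
    ⟨fun x hx y hy o => ?_, fun g hg => ?_, fun g hg => ?_⟩, ?_, fun x hx => ?_⟩
  · rw [add_comm, ← eq_sub_iff_add_eq, t.w1 le hw hx hy, cw2]
    refine Finset.sum_congr rfl fun i _ => ?_
    rw [← h.co _ (t.ta_mem (le hx) _) _ (t.ta_mem (le hy) _) (o.imp (hN x · _) (hN y · _)),
      add_sub_cancel_left]
  · rw [← t.w0 le hw (l2 hg), cw1, map_sum]
    exact Finset.sum_congr rfl fun i _ => by rw [map_zsmul, F.eq _ (t.mem _), h.dw _ (hN g hg i)]
  · rw [← t.w0 le hw (l2 hg), cw1, Finset.smul_sum]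
    exact Finset.sum_congr rfl fun i _ => by rw [smul_comm, ← sm_n, h.mw _ (hN g hg i)]
  · simp only [Finset.smul_sum, map_sum dv, ← Finset.sum_sub_distrib, map_sum S]
    refine Finset.sum_congr rfl fun i _ => ?_
    rw [smul_comm, ← sm_n, q, ← F.se _ (t.mem i) _ (h.efx F'), ← map_zsmul, map_zsmul dv,
      F.eq _ (t.mem i), smul_sub, smul_sub, sm_n, smul_comm]
  · rw [← t.w0 le hw hx, ← t.w0 le hw hx, cw1, cw1, map_sum, ← Finset.sum_sub_distrib, map_sum,
      ← Finset.sum_add_distrib]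
    refine Finset.sum_congr rfl fun i _ => ?_
    rw [map_zsmul, F.eq _ (t.mem _), ← smul_sub, ← smul_sub, map_zsmul,
      F.se _ (t.mem _) _ (h.dfx F' O (t.ta_mem (le hx) i)), f _ (t.ta_mem (le hx) i), smul_add,
      smul_add]

end

end Vale.Agent.P014T.Kc
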